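import Mathlib.Topology.Algebra.Group.Basic
import Mathlib.Topology.Algebra.Group.Pointwise
import Mathlib.Topology.Compactness.SigmaCompact
import Mathlib.Analysis.SpecialFunctions.Log.Basic
import Mathlib.Analysis.SpecialFunctions.Pow.Real

/-!
P092 (helper515), [MIX], part 1: proper length functions of exponential growth on every locally
compact `σ`-compact group.
-/

set_option linter.all false

open Set Filter Topology
open scoped Pointwise

namespace Vale.Agent.P092.H515.Mx

/-- A length function of (at most) exponential growth. -/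
structure Len {Γ : Type} [Group Γ] (s : Γ → ℝ) : Prop where
  nonneg : ∀ g, 0 ≤ s g
  mul : ∀ g h, s (g * h) ≤ s g + s h
  inv : ∀ g, s g⁻¹ = s g
  pack : ∃ C0 C : ℝ, 0 < C ∧ ∃ M : ℕ, ∀ k : ℕ, ∃ (X : Type) (_ : Fintype X) (code : Γ → X),
    (Fintype.card X : ℝ) ≤ C * ((k : ℝ) + 1) ^ M ∧
    ∀ b b', Real.exp (s b) ≤ k → Real.exp (s b') ≤ k → code b = code b' →
      Real.exp (s (b⁻¹ * b')) ≤ C0

theorem Len.comap {Γ H : Type} [Group Γ] [Group H] {s : H → ℝ} (h : Len s) (φ : Γ →* H) :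
    Len fun γ => s (φ γ) where
  nonneg g := h.nonneg _
  mul g g' := by rw [map_mul]; exact h.mul _ _
  inv g := by rw [map_inv]; exact h.inv _
  pack := by
    obtain ⟨C0, C, hC, M, hM⟩ := h.pack
    refine ⟨C0, C, hC, M, fun k => ?_⟩
    obtain ⟨X, hX, code, h1, h2⟩ := hM k
    exact ⟨X, hX, fun g => code (φ g), h1, fun b b' hb hb' hc => by
      rw [map_mul, map_inv]; exact h2 _ _ hb hb' hc⟩

theorem Len.gap {Γ : Type} [Group Γ] {s : Γ → ℝ} (h : Len s) (x y g : Γ) :
    |s (x * g * y) - s g| ≤ s x + s y := by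
  rw [abs_le]
  constructor
  · have h1 := h.mul (x⁻¹ * (x * g * y)) y⁻¹
    have h2 := h.mul x⁻¹ (x * g * y)
    rw [h.inv] at h1 h2
    have e : x⁻¹ * (x * g * y) * y⁻¹ = g := by group
    rw [e] at h1
    linarith
  · have h1 := h.mul (x * g) y
    have h2 := h.mul x g
    linarith

section words

variable {H : Type} [Group H]

/-- the products of the sets of a word -/
def W (K : ℕ → Set H) (l : List ℕ) : Set H := (l.map K).prod

theorem W_nil (K : ℕ → Set H) : W K [] = 1 := rfl

theorem W_append (K : ℕ → Set H) (l l' : List ℕ) : W K (l ++ l') = W K l * W K l' := by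
  unfold W
  rw [List.map_append, List.prod_append]

theorem W_single (K : ℕ → Set H) (n : ℕ) : W K [n] = K n := by
  unfold W
  simp

theorem W_inv {K : ℕ → Set H} (hK : ∀ n, (K n)⁻¹ = K n) (l : List ℕ) :
    (W K l)⁻¹ = W K l.reverse := by
  induction l with
  | nil => rw [List.reverse_nil, W_nil, inv_one]
  | cons n l ih =>
    have e : W K (n :: l) = W K [n] * W K l := W_append K [n] l
    rw [e, mul_inv_rev, ih, List.reverse_cons, W_append, W_single, hK]

variable {K : ℕ → Set H} {V : Set H} {a : ℕ → ℕ}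

/-- covering numbers -/
theorem cover (hV : (1 : H) ∈ V) {Z : ℕ → Finset H}
    (hZ : ∀ n, ∀ h ∈ V * K n, ∃ z ∈ Z n, z⁻¹ * h ∈ V) (ha : ∀ n, (Z n).card + n + 2 = a n)
    (r : ℕ) : ∃ T : Finset H, (T.card : ℝ) ≤ 2 * 2 ^ r ∧ ∀ l : List ℕ, (l.map a).sum ≤ r →
      ∀ h ∈ W K l, ∃ z ∈ T, z⁻¹ * h ∈ V := by
  classical
  induction r using Nat.strong_induction_on with
  | _ r ih =>
    have ih' : ∀ n, ∃ T : Finset H, a n ≤ r → (T.card : ℝ) ≤ 2 * 2 ^ (r - a n) ∧
        ∀ l : List ℕ, (l.map a).sum ≤ r - a n → ∀ h ∈ W K l, ∃ z ∈ T, z⁻¹ * h ∈ V := by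
      intro n
      by_cases hn : a n ≤ r
      · have h0 : 0 < a n := by have := ha n; omega
        obtain ⟨T, hT⟩ := ih (r - a n) (by omega)
        exact ⟨T, fun _ => hT⟩
      · exact ⟨∅, fun h => absurd h hn⟩
    choose T hT using ih'
    refine ⟨{1} ∪ ((Finset.range r).filter fun n => a n ≤ r).biUnion
      (fun n => (T n ×ˢ Z n).image fun x => x.1 * x.2), ?_, ?_⟩
    · have h1 : (({1} ∪ ((Finset.range r).filter fun n => a n ≤ r).biUnion
          (fun n => (T n ×ˢ Z n).image fun x => x.1 * x.2) : Finset H).card : ℝ) ≤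
          1 + ∑ n ∈ (Finset.range r).filter (fun n => a n ≤ r),
            ((T n).card : ℝ) * (Z n).card := by
        have h2 := Finset.card_union_le ({1} : Finset H)
          (((Finset.range r).filter fun n => a n ≤ r).biUnion
            (fun n => (T n ×ˢ Z n).image fun x => x.1 * x.2))
        have h3 : (((Finset.range r).filter fun n => a n ≤ r).biUnion
            (fun n => (T n ×ˢ Z n).image fun x => x.1 * x.2)).card ≤
            ∑ n ∈ (Finset.range r).filter (fun n => a n ≤ r), (T n).card * (Z n).card := by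
          refine Finset.card_biUnion_le.trans (Finset.sum_le_sum fun n _ => ?_)
          refine Finset.card_image_le.trans ?_
          rw [Finset.card_product]
        rw [Finset.card_singleton] at h2
        have h4 := h2.trans (Nat.add_le_add_left h3 1)
        exact_mod_cast h4
      refine h1.trans ?_
      have h5 : ∀ n ∈ (Finset.range r).filter (fun n => a n ≤ r),
          ((T n).card : ℝ) * (Z n).card ≤ 2 * 2 ^ r * (1 / 2) ^ (n + 2) := by
        intro n hn
        rw [Finset.mem_filter] at hn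
        have h6 := (hT n hn.2).1
        have h7 : ((Z n).card : ℝ) ≤ 2 ^ (Z n).card := by
          exact_mod_cast (Nat.lt_two_pow_self).le
        have h8 : (2 : ℝ) ^ r = 2 ^ (r - a n) * (2 ^ (Z n).card * 2 ^ (n + 2)) := by
          rw [← pow_add, ← pow_add]
          congr 1
          have := ha n
          have := hn.2
          omega
        calc ((T n).card : ℝ) * (Z n).card ≤ (2 * 2 ^ (r - a n)) * 2 ^ (Z n).card :=
              mul_le_mul h6 h7 (Nat.cast_nonneg _) (by positivity)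
          _ = 2 * 2 ^ r * (1 / 2) ^ (n + 2) := by
            rw [h8, one_div, inv_pow]
            field_simp
      have h9 : ∀ m : ℕ, ∑ n ∈ Finset.range m, ((1 : ℝ) / 2) ^ (n + 2) ≤ 1 / 2 := by
        intro m
        have h10 : ∑ n ∈ Finset.range m, ((1 : ℝ) / 2) ^ (n + 2) = 1 / 2 - (1 / 2) ^ (m + 1) := by
          induction m with
          | zero => norm_num
          | succ m ih2 => rw [Finset.sum_range_succ, ih2]; ring
        rw [h10]
        have : (0 : ℝ) < (1 / 2) ^ (m + 1) := by positivity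
        linarith
      have h11 : ∑ n ∈ (Finset.range r).filter (fun n => a n ≤ r),
          ((T n).card : ℝ) * (Z n).card ≤ 2 ^ r := by
        calc _ ≤ ∑ n ∈ (Finset.range r).filter (fun n => a n ≤ r),
              2 * (2 : ℝ) ^ r * (1 / 2) ^ (n + 2) := Finset.sum_le_sum h5
          _ ≤ ∑ n ∈ Finset.range r, 2 * (2 : ℝ) ^ r * (1 / 2) ^ (n + 2) :=
              Finset.sum_le_sum_of_subset_of_nonneg (Finset.filter_subset _ _)
                fun n _ _ => by positivity
          _ = 2 * 2 ^ r * ∑ n ∈ Finset.range r, (1 / 2) ^ (n + 2) := by rw [Finset.mul_sum]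
          _ ≤ 2 * 2 ^ r * (1 / 2) := mul_le_mul_of_nonneg_left (h9 r) (by positivity)
          _ = 2 ^ r := by ring
      have h12 : (1 : ℝ) ≤ 2 ^ r := one_le_pow₀ one_le_two
      linarith
    · intro l
      induction l using List.reverseRecOn with
      | nil =>
        intro _ h hh
        rw [W_nil, Set.mem_one] at hh
        subst hh
        exact ⟨1, by simp, by simpa using hV⟩
      | append_singleton l n _ =>
        intro hl h hh
        rw [W_append, W_single] at hh
        obtain ⟨x, hx, y, hy, rfl⟩ := Set.mem_mul.1 hh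
        rw [List.map_append, List.sum_append] at hl
        simp only [List.map_cons, List.map_nil, List.sum_cons, List.sum_nil, add_zero] at hl
        have han : a n ≤ r := by omega
        obtain ⟨z, hz, hzx⟩ := (hT n han).2 l (by omega) x hx
        obtain ⟨z', hz', hzy⟩ := hZ n (z⁻¹ * x * y) (Set.mul_mem_mul hzx hy)
        refine ⟨z * z', ?_, ?_⟩
        · refine Finset.mem_union_right _ (Finset.mem_biUnion.2 ⟨n, ?_, ?_⟩)
          · rw [Finset.mem_filter, Finset.mem_range]
            have := ha n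
            exact ⟨by omega, han⟩
          · exact Finset.mem_image.2 ⟨(z, z'), Finset.mem_product.2 ⟨hz, hz'⟩, rfl⟩
        · have e : (z * z')⁻¹ * (x * y) = z'⁻¹ * (z⁻¹ * x * y) := by group
          rw [e]
          exact hzy

end words

section exists_len

variable (H : Type) [Group H] [TopologicalSpace H] [IsTopologicalGroup H] [LocallyCompactSpace H]
  [SigmaCompactSpace H]

/-- **Proper length functions of exponential growth exist.** -/
theorem exists_len : ∃ s : H → ℝ, Len s ∧ (∀ R : ℝ, ∃ K : Set H, IsCompact K ∧ ∀ h, s h ≤ R → h ∈ K) ∧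
    ∀ K : Set H, IsCompact K → ∃ R : ℝ, ∀ h ∈ K, s h ≤ R := by
  classical
  obtain ⟨V, hVc, hV1⟩ := exists_compact_mem_nhds (1 : H)
  have h1V : (1 : H) ∈ V := mem_of_mem_nhds hV1
  obtain ⟨L⟩ : Nonempty (CompactExhaustion H) := inferInstance
  obtain ⟨K, hK⟩ : ∃ K : ℕ → Set H, ∀ n, K n = L n ∪ (L n)⁻¹ := ⟨_, fun _ => rfl⟩
  have hKc : ∀ n, IsCompact (K n) := fun n => by
    rw [hK]; exact (L.isCompact n).union (L.isCompact n).inv
  have hKi : ∀ n, (K n)⁻¹ = K n := fun n => by
    rw [hK, Set.union_inv, inv_inv, Set.union_comm]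
  have hcov : ∀ n, ∃ Z : Finset H, ∀ h ∈ V * K n, ∃ z ∈ Z, z⁻¹ * h ∈ V := by
    intro n
    obtain ⟨t, ht⟩ := compact_covered_by_mul_left_translates (hVc.mul (hKc n))
      ⟨1, mem_interior_iff_mem_nhds.2 hV1⟩
    refine ⟨t.image fun g => g⁻¹, fun h hh => ?_⟩
    obtain ⟨g, hg, h2⟩ := Set.mem_iUnion₂.1 (ht hh)
    exact ⟨g⁻¹, Finset.mem_image.2 ⟨g, hg, rfl⟩, by rw [inv_inv]; exact h2⟩
  choose Z hZ using hcov
  obtain ⟨a, ha⟩ : ∃ a : ℕ → ℕ, ∀ n, (Z n).card + n + 2 = a n := ⟨_, fun _ => rfl⟩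
  obtain ⟨S, hS⟩ : ∃ S : H → Set ℕ, ∀ h, S h = {m | ∃ l : List ℕ, (l.map a).sum = m ∧ h ∈ W K l} :=
    ⟨_, fun _ => rfl⟩
  have hne : ∀ h, (S h).Nonempty := fun h => by
    obtain ⟨n, hn⟩ := L.exists_mem h
    rw [hS]
    exact ⟨_, [n], rfl, by rw [W_single, hK]; exact Or.inl hn⟩
  obtain ⟨ℓ, hℓ⟩ : ∃ ℓ : H → ℕ, ∀ h, ℓ h = sInf (S h) := ⟨_, fun _ => rfl⟩
  have hmem : ∀ h, ∃ l : List ℕ, (l.map a).sum = ℓ h ∧ h ∈ W K l := fun h => by
    have := Nat.sInf_mem (hne h)
    rw [← hℓ, hS] at this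
    exact this
  have hle : ∀ h (l : List ℕ), h ∈ W K l → ℓ h ≤ (l.map a).sum := fun h l hl => by
    rw [hℓ]
    exact Nat.sInf_le (by rw [hS]; exact ⟨l, rfl, hl⟩)
  have hmul : ∀ g h, ℓ (g * h) ≤ ℓ g + ℓ h := by
    intro g h
    obtain ⟨l, h1, h2⟩ := hmem g
    obtain ⟨l', h3, h4⟩ := hmem h
    have h5 := hle (g * h) (l ++ l') (by rw [W_append]; exact Set.mul_mem_mul h2 h4)
    rwa [List.map_append, List.sum_append, h1, h3] at h5
  have hinv1 : ∀ g, ℓ g⁻¹ ≤ ℓ g := by
    intro g
    obtain ⟨l, h1, h2⟩ := hmem g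
    have h5 := hle g⁻¹ l.reverse (by rw [← W_inv hKi]; exact Set.inv_mem_inv.2 h2)
    rwa [List.map_reverse, List.sum_reverse, h1] at h5
  have hinv : ∀ g, ℓ g⁻¹ = ℓ g := fun g => le_antisymm (hinv1 g) (by
    have := hinv1 g⁻¹
    rwa [inv_inv] at this)
  have hbd : ∀ A : Set H, IsCompact A → ∃ R : ℕ, ∀ h ∈ A, ℓ h ≤ R := by
    intro A hA
    obtain ⟨n, hn⟩ := L.exists_superset_of_isCompact hA
    refine ⟨a n, fun h hh => ?_⟩
    have h1 := hle h [n] (by rw [W_single, hK]; exact Or.inl (hn hh))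
    simpa using h1
  have hl2 : 0 < Real.log 2 := Real.log_pos one_lt_two
  have hexp : ∀ h, Real.exp ((ℓ h : ℝ) * Real.log 2) = 2 ^ ℓ h := fun h => by
    rw [mul_comm, Real.exp_mul, Real.exp_log two_pos, Real.rpow_natCast]
  refine ⟨fun h => (ℓ h : ℝ) * Real.log 2, ⟨fun g => by positivity, fun g h => ?_, fun g => ?_,
    ?_⟩, fun R => ?_, fun A hA => ?_⟩
  · rw [← add_mul]
    refine mul_le_mul_of_nonneg_right ?_ hl2.le
    exact_mod_cast hmul g h
  · simp only [hinv]
  · obtain ⟨R0, hR0⟩ := hbd (V⁻¹ * V) (hVc.inv.mul hVc)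
    refine ⟨2 ^ R0, 2, two_pos, 1, fun k => ?_⟩
    obtain ⟨T, hT1, hT2⟩ := cover (K := K) h1V hZ ha (Nat.log 2 k)
    rcases Nat.eq_zero_or_pos k with hk | hk
    · refine ⟨Unit, inferInstance, fun _ => (), ?_, fun b b' hb => ?_⟩
      · simp [hk]
      · exfalso
        rw [hk] at hb
        have := Real.exp_pos ((ℓ b : ℝ) * Real.log 2)
        simp only [Nat.cast_zero] at hb
        linarith
    · refine ⟨Option T, inferInstance, fun b => if h : ∃ z : T, (z : H)⁻¹ * b ∈ V then
        some h.choose else none, ?_, fun b b' hb hb' hcode => ?_⟩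
      · rw [Fintype.card_option, Fintype.card_coe]
        have h3 : (2 : ℝ) ^ Nat.log 2 k ≤ k := by
          exact_mod_cast Nat.pow_log_le_self 2 hk.ne'
        push_cast
        nlinarith
      · have key : ∀ b : H, Real.exp ((ℓ b : ℝ) * Real.log 2) ≤ k →
            ∃ z : T, (z : H)⁻¹ * b ∈ V := by
          intro b hb
          rw [hexp] at hb
          have h3 : 2 ^ ℓ b ≤ k := by exact_mod_cast hb
          have h4 : ℓ b ≤ Nat.log 2 k := Nat.le_log_of_pow_le one_lt_two h3
          obtain ⟨l, h5, h6⟩ := hmem b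
          obtain ⟨z, hz, h7⟩ := hT2 l (h5.trans_le h4) b h6
          exact ⟨⟨z, hz⟩, h7⟩
        have h1 := key b hb
        have h2 := key b' hb'
        simp only [dif_pos h1, dif_pos h2, Option.some.injEq] at hcode
        have h3 := h1.choose_spec
        have h4 := h2.choose_spec
        rw [← hcode] at h4
        have h5 : b⁻¹ * b' ∈ V⁻¹ * V := by
          refine Set.mem_mul.2 ⟨((h1.choose : H)⁻¹ * b)⁻¹, Set.inv_mem_inv.2 h3,
            (h1.choose : H)⁻¹ * b', h4, ?_⟩
          group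
        rw [hexp]
        exact pow_le_pow_right₀ one_le_two (hR0 _ h5)
  · obtain ⟨T, -, hT2⟩ := cover (K := K) h1V hZ ha ⌈R / Real.log 2⌉₊
    refine ⟨(T : Set H) * V, T.finite_toSet.isCompact.mul hVc, fun h hh => ?_⟩
    have h1 : (ℓ h : ℝ) ≤ R / Real.log 2 := by
      rw [le_div_iff₀ hl2]; exact hh
    have h2 : ℓ h ≤ ⌈R / Real.log 2⌉₊ := by
      exact_mod_cast h1.trans (Nat.le_ceil _)
    obtain ⟨l, h5, h6⟩ := hmem h
    obtain ⟨z, hz, h7⟩ := hT2 l (h5.trans_le h2) h h6
    exact Set.mem_mul.2 ⟨z, hz, z⁻¹ * h, h7, by group⟩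
  · obtain ⟨R, hR⟩ := hbd A hA
    refine ⟨R * Real.log 2, fun h hh => ?_⟩
    refine mul_le_mul_of_nonneg_right ?_ hl2.le
    exact_mod_cast hR h hh

end exists_len

end Vale.Agent.P092.H515.Mx
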