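import Vale.Agent.P092.H515.Mx.OutR
import Vale.Agent.P092.MX.Defs

/-!
P092 (helper515), [MIX], all `t`, part 9: the output of the wall analysis with passive places in the
letters of `MX/Defs` (`hO` of `H962.MX.exM1_of`), and the gauge.
-/

set_option linter.all false

open scoped InnerProductSpace ENNReal LinearAlgebra.Projectivization ZeroAtInfty
open Filter Topology ContinuousLinearMap MeasureTheory TopologicalSpace

namespace Vale.Agent.P092.H515.Mx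

open Vale.Agent.P092.SR Vale.Agent.P092.H160 Vale.Agent.P092.H103 Vale.Agent.P092.H962
open Vale.Agent.P092.H962.NT
open Vale.Agent.P092.H21 (mT WT Hon nc nc_ne)
open Vale.Agent.P092.H85 (cdat)
open Vale.Agent.P092.H859.CL (st)
open Vale.Agent.P092.RC (GG PG YY y0 ct PicF adjV3)
open Vale.Agent.P092.SN (CY PH UD Adm bw un nm)
open Vale.Agent.P092.H368.SN (Cz)

/-- **The gauge of the passive places**, a length function. -/
theorem exists_gauge {B Γ : Type} [Group Γ] {T : B → Type} [∀ b, Group (T b)]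
    [∀ b, TopologicalSpace (T b)] [∀ b, IsTopologicalGroup (T b)]
    [LocallyCompactSpace (∀ b, T b)] [SigmaCompactSpace (∀ b, T b)] (p : ∀ b, Γ →* T b) :
    ∃ s₀ : Γ → ℝ, Len s₀ ∧ Vale.Agent.P092.MX.Gauge p s₀ := by
  obtain ⟨s, h1, h2, h3⟩ := exists_len (∀ b, T b)
  refine ⟨fun γ => s (fun b => p b γ), h1.comap (MonoidHom.pi p), fun C hC => ?_, fun R => ?_⟩
  · obtain ⟨R, hR⟩ := h3 C hC
    exact ⟨R, fun γ hγ => hR _ hγ⟩
  · obtain ⟨K, hK, hK2⟩ := h2 R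
    exact ⟨K, hK, fun γ hγ => hK2 _ hγ⟩

section con

variable {E : Type} [Group E] [TopologicalSpace E] [IsTopologicalGroup E] [LocallyCompactSpace E]
  [SecondCountableTopology E] [T2Space E] [MeasurableSpace E] [BorelSpace E]
  {Γ : Subgroup E} [DiscreteTopology Γ] [Countable Γ] [MeasurableSpace (E ⧸ Γ)]
  [BorelSpace (E ⧸ Γ)] {ν : Measure (E ⧸ Γ)} [IsProbabilityMeasure ν]
  (hν : ∀ g : E, ν.map (fun x => g • x) = ν)
  (hΓ : ∀ g : Γ, g ≠ 1 → Set.Infinite {y : Γ | ∃ h, y = h * g * h⁻¹})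
  {Λ : Type} [Group Λ] [Countable Λ]
  (hΛ : ∀ s : Λ, s ≠ 1 → Set.Infinite {y : Λ | ∃ h, y = h * s * h⁻¹})
  {I : Type} [Fintype I] {α : Γ → (Ell2 (I × Λ) →L[ℂ] Ell2 (I × Λ))} (hα : AF α)
  {κ : Type} [Fintype κ] {ξ : κ → HH (PT α α α)}
  (hT : Tri (V3 hα hα hα) (A3R hα hα hα) (B3R hα hα hα) ξ)
  (hh : Hon (A3R hα hα hα) (B3R hα hα hα) ξ)
  {J : Type} [Fintype J] [DecidableEq J]
  {k l : J → Type} [∀ j, NontriviallyNormedField (k j)] [∀ j, ProperSpace (k j)]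
  [∀ j, NontriviallyNormedField (l j)] [∀ j, ProperSpace (l j)] {N : J → ℕ}

include hΓ hΛ hh in
/-- **The output of the wall analysis with passive places** (`hO` of `H962.MX.exM1_of`). -/
theorem exists_outM [Nonempty J] (hk : ∀ j, H933.LocK (k j)) (hl : ∀ j, H933.LocK (l j))
    {ι : ∀ j, GG (k j) (N j) →* E} {a a' : ∀ j, E →* PG (k j) (N j + 1)}
    {w : ∀ j, (k j)ˣ} {q : ∀ j, Γ → GG (l j) (N j)} (hA : ∀ j, Adm (ι j) (a j) (a' j))
    (hcomm : ∀ i j, i ≠ j → ∀ g h, Commute (ι i g) (ι j h))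
    (hw : ∀ j, ‖(w j : k j)‖ < 1) (hz : ∀ j, Cz (w j) (ι j) (a j) (a' j))
    (hq : ∀ j, PH (q j)) {B : Type} [Fintype B] {T : B → Type} [∀ b, Group (T b)]
    [∀ b, TopologicalSpace (T b)] [∀ b, IsTopologicalGroup (T b)]
    [∀ b, LocallyCompactSpace (T b)] [∀ b, T2Space (T b)] {p : ∀ b, Γ →* T b}
    {Q : ∀ b, C₀(T b, ℂ) →⋆ₙₐ[ℂ] (Lp (HH (PT α α α)) 2 (cdat ν hν).μ →L[ℂ]
      Lp (HH (PT α α α)) 2 (cdat ν hν).μ)}
    {s₀ : Γ → ℝ} (hs : Len s₀) (hG : Vale.Agent.P092.MX.Gauge p s₀)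
    (fin : ∀ C : ℝ, {γ : Γ | (∀ j, nm (q j γ) ≤ C) ∧ s₀ γ ≤ C}.Finite)
    (nl : Vale.Agent.P092.MX.NLeg ι (H34.Ind.pi (cdat ν hν) (V := V3 hα hα hα) (adjV3 hα))
      (H34.Ind.lam (cdat ν hν) (A3R hα hα hα))
      (H34.Ind.Xset (cdat ν hν) (HH (PT α α α)) ∪
        Set.range (H34.Ind.lam (cdat ν hν) (B3R hα hα hα))) p Q)
    (hd : ∀ C : Set (∀ b, T b), IsCompact C → (Set.range (fun γ b => p b γ) ∩ C).Finite) :
    ∃ (Br : ℝ → Set Γ) (τ : J → J), H962.MX.OutM hν hT ι w q s₀ Br τ := by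
  obtain ⟨j₀⟩ := ‹Nonempty J›
  haveI : Nonempty J := ⟨j₀⟩
  haveI : NoncompactSpace E := H859.ExB.noncpt (hA j₀) (hw j₀)
  exact exists_outM₀ hν hΓ hΛ hα hT hh hk hl hA hcomm hw hz hq hs fin
    (tight_HH hν hΓ hΛ hα hT hh hG.bd nl.fl nl.pc nl.com hd)

end con

end Vale.Agent.P092.H515.Mx
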