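import Vale.Agent.P092.H515.ProdGeo
import Vale.Agent.P092.H515.Mx.Len

/-!
P092 (helper515), [MIX], part 2: systems of gauges in which some gaps are passive: gauges exist only
for the sets of gaps in a family `Q`. The passive factor is a length function.
-/

set_option linter.all false

namespace Vale.Agent.P092.H515.Mx

open Finset
open Vale.Agent.P092.H515
open Vale.Agent.P092.H761 (Geo Gaps)

/-- A system of gauges, with gauges for the sets of gaps in the family `Q`. -/
structure PSys {Γ J : Type} [Group Γ] (gap : J → Γ → ℝ) (w : Γ → ℝ) (Q : Finset J → Prop) :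
    Prop where
  pos : ∀ b, 0 < w b
  quasi : ∀ s t : Γ, ∃ C : ℝ, ∀ j g, |gap j (s * g * t) - gap j g| ≤ C
  bdd : ∀ R : ℝ, ∃ R' : ℝ, ∀ g, (∀ j, gap j g ≤ R) → w g ≤ R'
  pack : ∃ C0 C : ℝ, 0 < C ∧ ∃ M : ℕ, ∀ k : ℕ, ∃ (X : Type) (_ : Fintype X) (code : Γ → X),
    (Fintype.card X : ℝ) ≤ C * ((k : ℝ) + 1) ^ M ∧
    ∀ b b', w b ≤ k → w b' ≤ k → code b = code b' → w (b⁻¹ * b') ≤ C0
  gauge : ∀ θ : Finset J, Q θ → ∃ (P : Type) (_ : Fintype P) (f f0 : (P → ℝ) → Γ → Γ → ℝ)
    (A : ℝ), IsGauge gap w θ f f0 A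

theorem PSys.of {Γ J : Type} [Group Γ] {gap : J → Γ → ℝ} {w : Γ → ℝ} (h : GSys gap w)
    (Q : Finset J → Prop) : PSys gap w Q :=
  ⟨h.pos, h.quasi, h.bdd, h.pack, fun θ _ => h.gauge θ⟩

/-- **The passive factor.** -/
theorem PSys.passive {Γ J : Type} [Group Γ] [Nonempty J] {s : Γ → ℝ} (h : Len s) :
    PSys (fun (_ : J) g => s g) (fun g => Real.exp (s g)) (fun θ => θ = ∅) where
  pos b := Real.exp_pos _
  quasi x y := ⟨s x + s y, fun _ g => h.gap x y g⟩
  bdd R := ⟨Real.exp R, fun g hg => Real.exp_le_exp.2 (hg (Classical.arbitrary J))⟩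
  pack := h.pack
  gauge θ hθ := by
    subst hθ
    have hexp : ∀ b g : Γ, Real.exp (s (g⁻¹ * b)) ≤ Real.exp (s g) * Real.exp (s b) := by
      intro b g
      rw [← Real.exp_add]
      refine Real.exp_le_exp.2 ?_
      have := h.mul g⁻¹ b
      rw [h.inv] at this
      exact this
    have hexp' : ∀ b g : Γ, Real.exp (-s g) * Real.exp (s b) ≤ Real.exp (s (g⁻¹ * b)) := by
      intro b g
      rw [← Real.exp_add]
      refine Real.exp_le_exp.2 ?_
      have := h.mul g (g⁻¹ * b)
      rw [mul_inv_cancel_left] at this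
      linarith
    refine ⟨PEmpty, inferInstance, fun _ g b => Real.exp (s (g⁻¹ * b)),
      fun _ _ b => Real.exp (s b), 0, ?_⟩
    refine ⟨fun t g => ⟨Real.exp (-s g), Real.exp_pos _, fun b => hexp' b g⟩,
      fun t g => ⟨1, one_pos, fun b => (one_mul _).le⟩,
      fun R T => ⟨Real.exp (-R), Real.exp_pos _, Real.exp R, fun g hg t ht b => ?_⟩,
      fun T => ⟨1, one_pos, 1, fun g t ht b => ⟨(one_mul _).le, (one_mul _).ge⟩⟩,
      fun t d g b => by simp, fun x R1 => ⟨0, fun ρ hρ => ⟨0, fun T => ⟨0, fun g _ _ =>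
        ⟨0, by simp, 0, fun j => j.elim, fun t _ b => ?_⟩⟩⟩⟩,
      fun u T η hη => ⟨0, fun g _ t _ b => ?_⟩, fun R => ⟨max (Real.exp R) 1, le_max_right _ _,
        fun T => ⟨0, fun g _ hg t _ b => ?_⟩⟩⟩
    · have hg' : s g ≤ R := hg (Classical.arbitrary J) (Finset.notMem_empty _)
      exact ⟨(mul_le_mul_of_nonneg_right (Real.exp_le_exp.2 (neg_le_neg hg'))
        (Real.exp_pos _).le).trans (hexp' b g), (hexp b g).trans
        (mul_le_mul_of_nonneg_right (Real.exp_le_exp.2 hg') (Real.exp_pos _).le)⟩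
    · have e : (x * g)⁻¹ * (x * b) = g⁻¹ * b := by group
      simp only [e, Real.exp_zero, one_mul, sub_self, abs_zero]
      positivity
    · simp only [sub_self, abs_zero]
      positivity
    · have hg' : s g ≤ R := hg (Classical.arbitrary J) (Finset.notMem_empty _)
      have hb := Real.exp_pos (s b)
      constructor
      · exact (hexp b g).trans (mul_le_mul_of_nonneg_right
          ((Real.exp_le_exp.2 hg').trans (le_max_left _ _)) hb.le)
      · have h1 := hexp' b g
        have h2 : Real.exp (s b) = Real.exp (s g) * (Real.exp (-s g) * Real.exp (s b)) := by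
          rw [← mul_assoc, ← Real.exp_add, add_neg_cancel, Real.exp_zero, one_mul]
        rw [h2]
        exact mul_le_mul ((Real.exp_le_exp.2 hg').trans (le_max_left _ _)) h1
          (by positivity) (by positivity)

section prod
variable {Γ I : Type} [Group Γ] [Fintype I] {J : I → Type}
  {gap : ∀ i, J i → Γ → ℝ} {w : I → Γ → ℝ} {Q : ∀ i, Finset (J i) → Prop}

/-- Products of systems of gauges. -/
theorem PSys.pi [Nonempty I] (h : ∀ i, PSys (gap i) (w i) (Q i)) :
    PSys (fun (j : Σ i, J i) g => gap j.1 j.2 g) (fun b => ∑ i, w i b)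
      (fun θ => ∀ i, Q i (pth θ i)) := by
  have hw := fun i => (h i).pos
  have hle : ∀ i b, w i b ≤ ∑ i, w i b := fun i b =>
    Finset.single_le_sum (f := fun i => w i b) (fun i _ => (hw i b).le) (Finset.mem_univ i)
  refine ⟨fun b => Finset.sum_pos (fun i _ => hw i b) Finset.univ_nonempty, ?_, ?_, ?_, ?_⟩
  · intro s t
    choose C hC using fun i => (h i).quasi s t
    obtain ⟨C', _, hCC⟩ := exists_le_all C
    exact ⟨C', fun j g => (hC j.1 j.2 g).trans (hCC j.1)⟩
  · intro R
    choose R' hR using fun i => (h i).bdd R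
    exact ⟨∑ i, R' i, fun g hg => Finset.sum_le_sum fun i _ => hR i g fun j => hg ⟨i, j⟩⟩
  · choose C0 C hC M hM using fun i => (h i).pack
    refine ⟨∑ i, C0 i, ∏ i, C i, Finset.prod_pos fun i _ => hC i, ∑ i, M i, fun k => ?_⟩
    choose X hX code hc1 hc2 using fun i => hM i k
    classical
    refine ⟨∀ i, X i, inferInstance, fun g i => code i g, ?_, fun b b' hb hb' hcode => ?_⟩
    · rw [Fintype.card_pi, Nat.cast_prod, ← Finset.prod_pow_eq_pow_sum, ← Finset.prod_mul_distrib]
      exact Finset.prod_le_prod (fun i _ => Nat.cast_nonneg _) fun i _ => hc1 i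
    · exact Finset.sum_le_sum fun i _ => hc2 i b b' ((hle i b).trans hb) ((hle i b').trans hb')
        (congrFun hcode i)
  · intro θ hθ
    choose P hP f f0 A hG using fun i => (h i).gauge (pth θ i) (hθ i)
    exact ⟨(Σ i, P i) ⊕ I, inferInstance, pf f, pf f0, 1 + ∑ i, |A i|, isGauge_pi hw hG⟩

end prod

section summ
variable {Γ J : Type} [Group Γ] {gap : J → Γ → ℝ} {w : Γ → ℝ} {Q : Finset J → Prop}

/-- Polynomial growth. -/
lemma PSys.card_le (h : PSys gap w Q) (fin : ∀ R : ℝ, {g | w g ≤ R}.Finite) :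
    ∃ C : ℝ, 0 < C ∧ ∃ M : ℕ, ∀ (k : ℕ) (S : Finset Γ), (∀ b ∈ S, w b ≤ k) →
      (S.card : ℝ) ≤ C * ((k : ℝ) + 1) ^ M := by
  classical
  obtain ⟨C0, C, hC, M, hM⟩ := h.pack
  set N : Finset Γ := (fin C0).toFinset with hN
  refine ⟨C * ((N.card : ℝ) + 1), by positivity, M, fun k S hS => ?_⟩
  obtain ⟨X, hX, code, h1, h2⟩ := hM k
  -- representatives
  let rep : X → Γ := fun x => if hx : ∃ b ∈ S, code b = x then hx.choose else 1
  have hrep : ∀ b ∈ S, rep (code b) ∈ S ∧ code (rep (code b)) = code b := by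
    intro b hb
    have hx : ∃ b' ∈ S, code b' = code b := ⟨b, hb, rfl⟩
    have : rep (code b) = hx.choose := dif_pos hx
    rw [this]
    exact hx.choose_spec
  have hcard : S.card ≤ (univ ×ˢ N : Finset (X × Γ)).card := by
    refine Finset.card_le_card_of_injOn (fun b => (code b, (rep (code b))⁻¹ * b)) ?_ ?_
    · intro b hb
      obtain ⟨r1, r2⟩ := hrep b hb
      simp only [Finset.coe_product, Set.mem_prod, Finset.mem_coe, Finset.mem_univ, true_and]
      rw [hN, Set.Finite.mem_toFinset]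
      exact h2 _ _ (hS _ r1) (hS b hb) r2
    · intro b _ b' _ hbb
      have e1 : code b = code b' := congrArg Prod.fst hbb
      have e2 : (rep (code b))⁻¹ * b = (rep (code b'))⁻¹ * b' := congrArg Prod.snd hbb
      rw [e1] at e2
      exact mul_left_cancel e2
  have hcard' : (S.card : ℝ) ≤ (Fintype.card X : ℝ) * N.card := by
    have := hcard
    rw [Finset.card_product, Finset.card_univ] at this
    exact_mod_cast this
  have hk : (0 : ℝ) ≤ ((k : ℝ) + 1) ^ M := by positivity
  calc (S.card : ℝ) ≤ (Fintype.card X : ℝ) * N.card := hcard'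
    _ ≤ (C * ((k : ℝ) + 1) ^ M) * ((N.card : ℝ) + 1) :=
        mul_le_mul h1 (by linarith) (Nat.cast_nonneg _) (by positivity)
    _ = _ := by ring

/-- The height function is bounded below. -/
lemma PSys.exists_lower (h : PSys gap w Q) (fin : ∀ R : ℝ, {g | w g ≤ R}.Finite) :
    ∃ c : ℝ, 0 < c ∧ c ≤ 1 ∧ ∀ b, c ≤ w b := by
  classical
  set N : Finset Γ := (fin 1).toFinset with hN
  obtain ⟨c, hc, h1⟩ := exists_pos_le_all (fun b : N => w b) fun b => h.pos b
  refine ⟨min c 1, lt_min hc one_pos, min_le_right _ _, fun b => ?_⟩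
  by_cases hb : w b ≤ 1
  · have : b ∈ N := by rw [hN, Set.Finite.mem_toFinset]; exact hb
    exact (min_le_left _ _).trans (h1 ⟨b, this⟩)
  · exact (min_le_right _ _).trans (not_le.1 hb).le

/-- Summability. -/
theorem PSys.summable (h : PSys gap w Q) (fin : ∀ R : ℝ, {g | w g ≤ R}.Finite) :
    ∃ N : ℕ, Summable fun b => (w b ^ N)⁻¹ := by
  classical
  obtain ⟨C, hC, M, hM⟩ := h.card_le fin
  obtain ⟨c, hc, hc1, hcw⟩ := h.exists_lower fin
  refine ⟨M + 2, ?_⟩
  -- the level of an element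
  set l : Γ → ℕ := fun b => ⌈w b⌉₊ with hl
  have hl1 : ∀ b, w b ≤ l b := fun b => Nat.le_ceil _
  have hl2 : ∀ b, (l b : ℝ) < w b + 1 := fun b => Nat.ceil_lt_add_one (h.pos b).le
  -- partial sums
  set a : ℕ → ℝ := fun k => (((k : ℝ) + 1) ^ (M + 2))⁻¹ with ha
  have ha0 : ∀ k, 0 ≤ a k := fun k => by rw [ha]; positivity
  -- weight comparison
  set e : ℝ := 1 + 2 / c with he
  have he1 : 0 < e := by rw [he]; positivity
  have hcmp : ∀ b, (w b ^ (M + 2))⁻¹ ≤ e ^ (M + 2) * a (l b) := by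
    intro b
    have h2 : (l b : ℝ) + 1 ≤ e * w b := by
      have h3 : 2 ≤ 2 / c * w b := by
        rw [div_mul_eq_mul_div, le_div_iff₀ hc]
        nlinarith [hcw b]
      have := hl2 b
      rw [he]; nlinarith
    rw [ha]
    simp only
    rw [← div_eq_mul_inv, le_div_iff₀ (by positivity), inv_mul_le_iff₀ (pow_pos (h.pos b) _),
      ← mul_pow]
    have h4 := pow_le_pow_left₀ (by positivity) h2 (M + 2)
    calc ((l b : ℝ) + 1) ^ (M + 2) ≤ (e * w b) ^ (M + 2) := h4
      _ = (w b * e) ^ (M + 2) := by rw [mul_comm]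
  -- partial sums by levels
  have s1 : Summable (fun k : ℕ => (((k : ℝ) + 1) ^ 2)⁻¹) := by
    have := (summable_nat_add_iff 1).2 (Real.summable_one_div_nat_pow.2 (by norm_num : 1 < 2))
    refine this.congr fun k => ?_
    push_cast
    rw [one_div]
  have s2 : Summable (fun b => a (l b)) := by
    refine summable_of_sum_le (c := C * ∑' k : ℕ, (((k : ℝ) + 1) ^ 2)⁻¹) (fun b => ha0 _)
      fun S => ?_
    have e1 : ∑ b ∈ S, a (l b) = ∑ k ∈ S.image l, ((S.filter fun b => l b = k).card : ℝ) * a k := by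
      rw [← Finset.sum_fiberwise_of_maps_to (t := S.image l) (g := l)
        (fun b hb => Finset.mem_image_of_mem l hb)]
      refine Finset.sum_congr rfl fun k _ => ?_
      rw [Finset.sum_congr rfl (g := fun _ => a k) fun b hb => by
        rw [(Finset.mem_filter.1 hb).2]]
      rw [Finset.sum_const, nsmul_eq_mul]
    rw [e1]
    calc ∑ k ∈ S.image l, ((S.filter fun b => l b = k).card : ℝ) * a k
        ≤ ∑ k ∈ S.image l, C * (((k : ℝ) + 1) ^ 2)⁻¹ := by
          refine Finset.sum_le_sum fun k _ => ?_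
          have h1 := hM k (S.filter fun b => l b = k) fun b hb => by
            rw [← (Finset.mem_filter.1 hb).2]; exact hl1 b
          have hk : (0 : ℝ) < ((k : ℝ) + 1) := by positivity
          calc ((S.filter fun b => l b = k).card : ℝ) * a k
              ≤ (C * ((k : ℝ) + 1) ^ M) * a k := mul_le_mul_of_nonneg_right h1 (ha0 k)
            _ = C * (((k : ℝ) + 1) ^ 2)⁻¹ := by
                rw [ha]
                simp only
                rw [pow_add]
                field_simp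
      _ = C * ∑ k ∈ S.image l, (((k : ℝ) + 1) ^ 2)⁻¹ := by rw [Finset.mul_sum]
      _ ≤ _ := mul_le_mul_of_nonneg_left
          (s1.sum_le_tsum _ fun k _ => by positivity) hC.le
  refine Summable.of_nonneg_of_le (fun b => ?_) hcmp (s2.mul_left _)
  have := h.pos b
  positivity

/-- **The geometric functions of a system of gauges.** -/
theorem PSys.geo [DecidableEq Γ] (h : PSys gap w Q) (fin : ∀ R : ℝ, {g | w g ≤ R}.Finite)
    (θ : Finset J) (hθ : Q θ) : Geo gap θ := by
  classical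
  obtain ⟨N, hN⟩ := h.summable fin
  obtain ⟨P, hP, f, f0, A, hG⟩ := h.gauge θ hθ
  refine R1d.asmR (J := P) (N := N) (w := w) (f := f) (f0 := f0) (A := A)
    (fun R g => ∀ j ∈ θ, R ≤ gap j g) (fun R g => ∀ j, j ∉ θ → gap j g ≤ R)
    (fun R R' g hRR hg j hj => hRR.trans (hg j hj))
    (fun R R' g hRR hg j hj => (hg j hj).trans hRR) (fun s => ?_)
    h.pos hN hG.lo hG.lo0 hG.bd hG.bd0 hG.lip (fun s R1 => ?_) hG.right hG.ov
  · obtain ⟨C, hC⟩ := h.quasi s 1
    refine ⟨C, fun R g hg j hj => ?_⟩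
    have := hC j g
    rw [mul_one] at this
    linarith [(abs_le.1 this).2, hg j hj]
  · obtain ⟨C, hC⟩ := hG.left s R1
    refine ⟨C, fun ρ hρ => ?_⟩
    obtain ⟨L, hL⟩ := hC ρ hρ
    refine ⟨L, fun T => ?_⟩
    obtain ⟨D, hD⟩ := hL T
    refine ⟨D, fun g hg hg1 => ?_⟩
    obtain ⟨p, -, σ, hσ, h1⟩ := hD g hg hg1
    exact ⟨Real.exp p, Real.exp_pos p, σ, hσ, h1⟩

/-- Balls defined by the gaps are finite. -/
theorem PSys.gap_finite (h : PSys gap w Q) (fin : ∀ R : ℝ, {g | w g ≤ R}.Finite) (R : ℝ) :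
    {g : Γ | ∀ j, gap j g ≤ R}.Finite := by
  obtain ⟨R', hR⟩ := h.bdd R
  exact (fin R').subset fun g hg => hR g hg

/-- The gaps. -/
theorem PSys.gaps (h : PSys gap w Q) (fin : ∀ R : ℝ, {g | w g ≤ R}.Finite) {r : ℕ}
    (cl : J → Fin r)
    (comp : ∀ R : ℝ, ∃ R' : ℝ, ∀ i j, cl i = cl j → ∀ g, gap i g ≤ R → gap j g ≤ R') :
    Gaps gap cl where
  quasi := h.quasi
  fin := h.gap_finite fin
  comp := comp

end summ

end Vale.Agent.P092.H515.Mx
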