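import Vale.Agent.P092.H221.GapsF
import Vale.Agent.P092.H515.Mx.PSys

/-!
P092 (helper515), [MIX], part 3: the system of gauges of a family of homomorphisms modulo scalars
and one passive length function, jointly proper (`H221.GapsC.gsys_crt2_fam` with a passive factor).
-/

set_option linter.all false

open Matrix

namespace Vale.Agent.P092.H515.Mx

open Vale.Agent.P092.H515 (GSys pth mem_pth fin_sum)
open Vale.Agent.P092.H933 (LocK BCart)
open Vale.Agent.P092.H534.GK (Crt)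
open Vale.Agent.P092.H776.NG
open Vale.Agent.P092.H221.GapsC (lg gsys_crt2_ph bcart_of_crt)

theorem PSys.mono {Γ J : Type} [Group Γ] {gap : J → Γ → ℝ} {w : Γ → ℝ} {Q Q' : Finset J → Prop}
    (h : PSys gap w Q) (hQ : ∀ θ, Q' θ → Q θ) : PSys gap w Q' :=
  ⟨h.pos, h.quasi, h.bdd, h.pack, fun θ hθ => h.gauge θ (hQ θ hθ)⟩

/-- the numbers of gaps plus one, with the passive factor -/
def nn {I : Type} (n : I → ℕ) : Option I → ℕ
  | none => 2
  | some i => n i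

/-- the gaps, with the passive factor -/
def gpo {Γ I : Type} {n : I → ℕ} (gap : ∀ i, Fin (n i - 1) → Γ → ℝ) (s : Γ → ℝ) :
    ∀ o : Option I, Fin (nn n o - 1) → Γ → ℝ
  | none => fun _ g => s g
  | some i => gap i

/-- the heights, with the passive factor -/
noncomputable def wto {Γ I : Type} (w : I → Γ → ℝ) (s : Γ → ℝ) : Option I → Γ → ℝ
  | none => fun g => Real.exp (s g)
  | some i => w i

/-- the families of sets of gaps with a gauge -/
def Qo {I : Type} {n : I → ℕ} : ∀ o : Option I, Finset (Fin (nn n o - 1)) → Prop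
  | none => fun θ => θ = ∅
  | some _ => fun _ => True

variable {Γ I : Type} [Group Γ] [Fintype I] {n : I → ℕ} {k : I → Type}
  [∀ i, NontriviallyNormedField (k i)] [∀ i, ProperSpace (k i)]

/-- **Gauges of a jointly proper family of homomorphisms modulo scalars and a passive length
function.** -/
theorem psys_fam (hk : ∀ i, LocK (k i)) (hn : ∀ i, 2 ≤ n i)
    (q : ∀ i, Γ → SpecialLinearGroup (Fin (n i)) (k i))
    (hq : ∀ i, ∀ γ γ', ∃ c : k i, (q i (γ * γ')).1 = c • (q i γ * q i γ').1)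
    {s : Γ → ℝ} (hs : Len s)
    (disc : ∀ C : ℝ, {γ : Γ | (∀ i, nmx (q i γ).1 ≤ C) ∧ s γ ≤ C}.Finite) :
    ∃ (gap : (Σ o : Option I, Fin (nn n o - 1)) → Γ → ℝ) (w : Γ → ℝ),
      PSys gap w (fun θ => ∀ x ∈ θ, x.1 ≠ none) ∧
      (∀ R : ℝ, {γ | w γ ≤ R}.Finite) ∧
      (∀ x γ, gap ⟨none, x⟩ γ = s γ) ∧
      (∀ i (r : ℝ), ∃ r' : ℝ, ∀ γ, r' < G1 (q i γ).1 → r' < G2 (q i γ).1 → γ ∈ Bg gap r) ∧
      (∀ i (r : ℝ), ∃ r' : ℝ, ∀ γ, r' < G1 ((q i γ).1)⁻¹ → r' < G2 ((q i γ).1)⁻¹ →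
        γ ∈ Bg gap r) ∧
      (∀ i j, i ≠ j → ∀ r : ℝ, ∃ r' : ℝ, ∀ γ, r' < nmx (q i γ).1 → r' < nmx (q j γ).1 →
        γ ∈ Bg gap r) ∧
      (∀ i (r : ℝ), ∃ r' : ℝ, ∀ γ, r' < nmx (q i γ).1 → r' < s γ → γ ∈ Bg gap r) ∧
      (∀ i, ∃ c C : ℝ, 0 < c ∧ ∀ γ, ∃ a U U' V V', Crt (q i γ).1 a U U' V V' ∧
        ∀ j : Fin (n i - 1), |gap ⟨some i, j⟩ γ - c * lg a j| ≤ C) ∧
      (∀ i (R : ℝ), ∃ R' : ℝ, ∀ γ, (∀ j : Fin (n i - 1), gap ⟨some i, j⟩ γ ≤ R) →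
        nmx (q i γ).1 ≤ R') := by
  have hn0 : ∀ i, 0 < n i := fun i => by have := hn i; omega
  choose gap w c C hc hsi hw hB using fun i => gsys_crt2_ph (hk i) (hn0 i) (q i) (hq i)
  have hB' : ∀ i γ, BCart (q i γ).1 (fun j => gap i j γ) (c i) (max (C i) 1) := by
    intro i γ
    obtain ⟨a, U, U', V, V', H, hx⟩ := hB i γ
    have hd : (q i γ).1.det ≠ 0 := by
      rw [(q i γ).2]
      exact one_ne_zero
    exact bcart_of_crt H (H.ne hd) (le_max_right _ _) fun j => (hx j).trans (le_max_left _ _)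
  obtain ⟨gp, hgp⟩ : ∃ gp : (Σ o : Option I, Fin (nn n o - 1)) → Γ → ℝ,
      gp = fun j g => gpo gap s j.1 j.2 g := ⟨_, rfl⟩
  have hgs : ∀ i (j : Fin (n i - 1)) γ, gp ⟨some i, j⟩ γ = gap i j γ := fun i j γ => by
    rw [hgp]; rfl
  have hgn : ∀ x γ, gp ⟨none, x⟩ γ = s γ := fun x γ => by
    rw [hgp]; rfl
  have hpos : ∀ o b, 0 < wto w s o b := by
    rintro (_ | i) b
    · exact Real.exp_pos _
    · exact (hsi i).pos b
  have hpi : PSys gp (fun b => ∑ o, wto w s o b)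
      (fun θ => ∀ o, Qo o (pth θ o)) := by
    rw [hgp]
    refine PSys.pi (gap := gpo gap s) (w := wto w s) (Q := Qo) ?_
    rintro (_ | i)
    · haveI : Nonempty (Fin (nn n none - 1)) := ⟨(0 : Fin 1)⟩
      exact PSys.passive (J := Fin (nn n none - 1)) hs
    · exact PSys.of (hsi i) _
  have two : ∀ i (r : ℝ), ∃ r' : ℝ, ∀ γ, (r' < G1 (q i γ).1 ∧ r' < G2 (q i γ).1) ∨
      (r' < G1 ((q i γ).1)⁻¹ ∧ r' < G2 ((q i γ).1)⁻¹) → γ ∈ Bg gp r := by
    intro i r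
    obtain ⟨r', hr'⟩ := two_gaps (k := k i) (hn i) (hc i) (max (C i) 1) (r + 1)
    refine ⟨r', fun γ hγ => ?_⟩
    obtain ⟨a, b, hab, h1, h2⟩ := hr' (q i γ).1 (fun j => gap i j γ)
      (by rw [(q i γ).2, norm_one]) (hB' i γ) hγ
    refine ⟨⟨some i, a⟩, ⟨some i, b⟩, fun h => hab ?_, ?_, ?_⟩
    · exact eq_of_heq (Sigma.mk.inj_iff.1 h).2
    · rw [hgs]; exact lt_of_lt_of_le (lt_add_one r) h1
    · rw [hgs]; exact lt_of_lt_of_le (lt_add_one r) h2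
  have bd : ∀ i (R : ℝ), ∃ R' : ℝ, 0 ≤ R' ∧ ∀ γ, (∀ j, gap i j γ ≤ R) → nmx (q i γ).1 ≤ R' := by
    intro i r
    obtain ⟨R1, h1⟩ := (hsi i).bdd r
    obtain ⟨R2, h2⟩ := hw i R1
    exact ⟨max R2 0, le_max_right _ _, fun γ hγ => nmx_le (le_max_right _ _) fun a b =>
      (h2 γ (h1 γ hγ) a b).trans (le_max_left _ _)⟩
  have one : ∀ i (r : ℝ), ∃ r' : ℝ, ∀ γ, r' < nmx (q i γ).1 → ∃ a, r < gap i a γ := by
    intro i r
    obtain ⟨R', -, h⟩ := bd i r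
    refine ⟨R', fun γ hγ => ?_⟩
    by_contra hc
    push Not at hc
    exact absurd (h γ hc) (not_le.2 hγ)
  refine ⟨gp, _, hpi.mono ?_, fin_sum hpos fun R => ?_, hgn, fun i r => ?_, fun i r => ?_,
    fun i j hij r => ?_, fun i r => ?_, fun i => ⟨c i, C i, hc i, fun γ => ?_⟩, fun i R => ?_⟩
  · rintro θ hθ (_ | i)
    · change pth θ none = ∅
      refine Finset.eq_empty_of_forall_notMem fun x hx => ?_
      exact hθ _ (mem_pth.1 hx) rfl
    · exact trivial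
  · choose R' hR' using fun i => hw i R
    refine (disc (max (∑ i, |R' i|) (max (Real.log R) 0))).subset fun γ hγ => ⟨fun i => ?_, ?_⟩
    · refine nmx_le ((Finset.sum_nonneg fun i _ => abs_nonneg _).trans (le_max_left _ _))
        fun a b => ?_
      exact (((hR' i γ (hγ (some i)) a b).trans (le_abs_self _)).trans
        (Finset.single_le_sum (f := fun i => |R' i|) (fun i _ => abs_nonneg _)
          (Finset.mem_univ i))).trans (le_max_left _ _)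
    · have h1 : Real.exp (s γ) ≤ R := hγ none
      have h2 : s γ ≤ Real.log R := by
        have h3 := Real.log_le_log (Real.exp_pos _) h1
        rwa [Real.log_exp] at h3
      exact h2.trans ((le_max_left _ _).trans (le_max_right _ _))
  · obtain ⟨r', hr'⟩ := two i r
    exact ⟨r', fun γ h1 h2 => hr' γ (Or.inl ⟨h1, h2⟩)⟩
  · obtain ⟨r', hr'⟩ := two i r
    exact ⟨r', fun γ h1 h2 => hr' γ (Or.inr ⟨h1, h2⟩)⟩
  · obtain ⟨r1, h1⟩ := one i r
    obtain ⟨r2, h2⟩ := one j r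
    refine ⟨max r1 r2, fun γ a1 a2 => ?_⟩
    obtain ⟨a, ha⟩ := h1 γ ((le_max_left _ _).trans_lt a1)
    obtain ⟨b, hb⟩ := h2 γ ((le_max_right _ _).trans_lt a2)
    exact ⟨⟨some i, a⟩, ⟨some j, b⟩, fun h => hij (Option.some.inj (Sigma.mk.inj_iff.1 h).1),
      by rw [hgs]; exact ha, by rw [hgs]; exact hb⟩
  · obtain ⟨r1, h1⟩ := one i r
    refine ⟨max r1 r, fun γ a1 a2 => ?_⟩
    obtain ⟨a, ha⟩ := h1 γ ((le_max_left _ _).trans_lt a1)
    obtain ⟨x0⟩ : Nonempty (Fin (nn n none - 1)) := ⟨(0 : Fin 1)⟩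
    refine ⟨⟨some i, a⟩, ⟨none, x0⟩, fun h => ?_, by rw [hgs]; exact ha, ?_⟩
    · exact absurd (Sigma.mk.inj_iff.1 h).1 (by simp)
    · rw [hgn]
      exact (le_max_right _ _).trans_lt a2
  · obtain ⟨a, U, U', V, V', H, hx⟩ := hB i γ
    exact ⟨a, U, U', V, V', H, fun j => by rw [hgs]; exact hx j⟩
  · obtain ⟨R', -, h⟩ := bd i R
    exact ⟨R', fun γ hγ => h γ fun j => by rw [← hgs]; exact hγ j⟩

/-- translates of the regular sets -/
theorem Bg_transP {Γ J : Type} [Group Γ] {gap : J → Γ → ℝ} {w : Γ → ℝ} {Q : Finset J → Prop}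
    (h : PSys gap w Q) (γ : Γ) (r : ℝ) : ∃ r', ∀ g ∈ Bg gap r', γ⁻¹ * g ∈ Bg gap r := by
  obtain ⟨C, hC⟩ := h.quasi γ⁻¹ 1
  refine ⟨r + C, ?_⟩
  rintro g ⟨i, j, hij, h1, h2⟩
  have e1 := (abs_le.1 (hC i g)).1
  have e2 := (abs_le.1 (hC j g)).1
  rw [mul_one] at e1 e2
  exact ⟨i, j, hij, by linarith, by linarith⟩

end Vale.Agent.P092.H515.Mx
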