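import Vale.Agent.P092.H515.Mx.Rg
import Vale.Agent.P092.H337.NGm

/-!
P092 (helper515), [MIX], part 5: one wall, one coordinate, with a passive size which is tight along
the source.
-/

set_option linter.all false

open scoped InnerProductSpace ENNReal LinearAlgebra.Projectivization
open Filter Topology ContinuousLinearMap MeasureTheory TopologicalSpace

namespace Vale.Agent.P092.H515.Mx

open Vale.Agent.P092.SN (PH nm Adm bw)
open Vale.Agent.P092.RC (GG YY PG ct PicF Moore)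
open Vale.Agent.P092.SR
open Vale.Agent.P092.H859.CL (BB FF cn st Esc pw pw_mem)
open Vale.Agent.P092.H859
open Vale.Agent.P092.H933 (LocK)
open Vale.Agent.P092.H515.Tau (Coords T1 T2 T1_gap T2_gap BB_sub quasi)
open Vale.Agent.P092.H368.SN (Cz geoE_of_adm pow_cocompact)
open Vale.Agent.P092.H21 (Hon mT BdT BfT msT WT RT arepT covFamT ET_lx fn_T fin_T)
open Vale.Agent.P092.H337.NG (RG Ls Ls_nonneg Ls_inv Ls_mul nm_of_Ls nm_lt_of_Ls one_le_nm)

/-! ### The coordinates and the passive size -/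

section crd

variable {Γ : Type} [Group Γ] {I : Type} {kk : I → Type} [∀ i, NontriviallyNormedField (kk i)]
  {NN : I → ℕ}

/-- the sizes of the coordinates, and the passive size -/
noncomputable def Lo (q : ∀ i, Γ → GG (kk i) (NN i)) (s : Γ → ℝ) : Option I → Γ → ℝ
  | none => s
  | some i => Ls q i

variable {q : ∀ i, Γ → GG (kk i) (NN i)} {s : Γ → ℝ} [Fintype I] [DecidableEq I]
  {Br : ℝ → Set Γ}

theorem coordsO (h : RG q Br)
    (hmix : ∀ i (r : ℝ), ∃ r' : ℝ, ∀ γ, r' < nm (q i γ) → r' < s γ → γ ∈ Br r)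
    (hN : ∀ i, 1 ≤ NN i) (hq : ∀ i, PH (q i)) (hs : Len s)
    (disc : ∀ C : ℝ, {γ : Γ | (∀ j, nm (q j γ) ≤ C) ∧ s γ ≤ C}.Finite) :
    Coords Br (Lo q s) where
  nonneg := by
    rintro (_ | j) γ
    · exact hs.nonneg γ
    · exact Ls_nonneg j γ
  fin r := (disc (max (Real.exp r) r)).subset fun γ hγ =>
    ⟨fun j => (nm_of_Ls (hγ (some j))).trans (le_max_left _ _),
      (hγ none).trans (le_max_right _ _)⟩
  inv := by
    have hf : ∀ j, (0 : ℝ) ≤ ((NN j + 1).factorial : ℝ) := fun j => Nat.cast_nonneg _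
    have hl : ∀ j, 0 ≤ Real.log (1 + ((NN j + 1).factorial : ℝ)) := fun j =>
      Real.log_nonneg (by linarith [hf j])
    have h0 : 0 ≤ ∑ j, (Real.log (1 + ((NN j + 1).factorial : ℝ)) + NN j) :=
      Finset.sum_nonneg fun j _ => add_nonneg (hl j) (Nat.cast_nonneg _)
    refine ⟨1 + ∑ j, (Real.log (1 + ((NN j + 1).factorial : ℝ)) + NN j), by linarith, ?_⟩
    rintro (_ | j) γ
    · change s γ⁻¹ ≤ _ * (s γ + 1)
      rw [hs.inv]
      have := hs.nonneg γ
      nlinarith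
    · change Ls q j γ⁻¹ ≤ _ * (Ls q j γ + 1)
      have h1 := Ls_inv hN hq j γ
      have h2 : Real.log (1 + ((NN j + 1).factorial : ℝ)) + NN j ≤
          1 + ∑ j, (Real.log (1 + ((NN j + 1).factorial : ℝ)) + NN j) := by
        have h3 := Finset.single_le_sum (f := fun j => Real.log (1 + ((NN j + 1).factorial : ℝ)) +
          NN j) (fun j _ => add_nonneg (hl j) (Nat.cast_nonneg _)) (Finset.mem_univ j)
        linarith
      have h4 := Ls_nonneg (q := q) j γ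
      have h5 : (0 : ℝ) ≤ NN j := Nat.cast_nonneg _
      have h6 := hl j
      calc Ls q j γ⁻¹ ≤ Real.log (1 + ((NN j + 1).factorial : ℝ)) + (NN j : ℝ) * Ls q j γ := h1
        _ ≤ (Real.log (1 + ((NN j + 1).factorial : ℝ)) + NN j) * (Ls q j γ + 1) := by nlinarith
        _ ≤ _ := mul_le_mul_of_nonneg_right h2 (by linarith)
  mul := by
    have hl : ∀ j ∈ (Finset.univ : Finset I), 0 ≤ Real.log ((NN j : ℝ) + 2) := fun j _ =>
      Real.log_nonneg (by
        have : (0 : ℝ) ≤ NN j := Nat.cast_nonneg _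
        linarith)
    refine ⟨∑ j, Real.log ((NN j : ℝ) + 2), ?_⟩
    rintro (_ | j) x y
    · have h1 := hs.mul x y
      have h2 := Finset.sum_nonneg hl
      change s (x * y) ≤ s x + s y + _
      linarith
    · have h1 := Ls_mul hq j x y
      have h2 := Finset.single_le_sum (f := fun j => Real.log ((NN j : ℝ) + 2)) hl
        (Finset.mem_univ j)
      change Ls q j (x * y) ≤ Ls q j x + Ls q j y + _
      linarith
  mix r := by
    choose r' hr' using fun i => h.mix' i r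
    choose r'' hr'' using fun i => hmix i r
    obtain ⟨A, hA⟩ : ∃ A : ℝ, A = ∑ i, Real.log (1 + max (r' i) 0) := ⟨_, rfl⟩
    obtain ⟨B, hB⟩ : ∃ B : ℝ, B = ∑ i, (Real.log (1 + max (r'' i) 0) + |r'' i|) := ⟨_, rfl⟩
    have l0 : ∀ x : ℝ, 0 ≤ Real.log (1 + max x 0) := fun x =>
      Real.log_nonneg (by have := le_max_right x 0; linarith)
    have hA0 : 0 ≤ A := by rw [hA]; exact Finset.sum_nonneg fun i _ => l0 _
    have hB0 : 0 ≤ B := by
      rw [hB]; exact Finset.sum_nonneg fun i _ => add_nonneg (l0 _) (abs_nonneg _)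
    have key : ∀ (j : I) (γ : Γ), A + B < Ls q j γ → A + B < s γ → γ ∈ Br r := by
      intro j γ h1 h2
      have h3 : Real.log (1 + max (r'' j) 0) + |r'' j| ≤ B := by
        rw [hB]
        exact Finset.single_le_sum (f := fun i => Real.log (1 + max (r'' i) 0) + |r'' i|)
          (fun i _ => add_nonneg (l0 _) (abs_nonneg _)) (Finset.mem_univ j)
      refine hr'' j γ (nm_lt_of_Ls ?_) ?_
      · have := abs_nonneg (r'' j)
        linarith
      · have := le_abs_self (r'' j)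
        have := l0 (r'' j)
        linarith
    refine ⟨A + B, ?_⟩
    rintro γ ⟨j, j', hj, h1, h2⟩
    rcases j with _ | j
    · rcases j' with _ | j'
      · exact absurd rfl hj
      · exact key j' γ h2 h1
    · rcases j' with _ | j'
      · exact key j γ h1 h2
      · have h3 : Real.log (1 + max (r' j) 0) ≤ A := by
          rw [hA]
          exact Finset.single_le_sum (f := fun i => Real.log (1 + max (r' i) 0))
            (fun i _ => l0 _) (Finset.mem_univ j)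
        have h1' : A + B < Ls q j γ := h1
        have h2' : A + B < Ls q j' γ := h2
        refine hr' j γ (nm_lt_of_Ls (by linarith)) ⟨j', fun e => hj (by rw [e]), nm_lt_of_Ls
          (by linarith)⟩

end crd

/-! ### Something is large -/

section esc

variable {Γ D K : Type} [Group Γ] [Group D] [NormedAddCommGroup K] [InnerProductSpace ℂ K]
  [CompleteSpace K] {mp : (Γ → ℝ) → (K →L[ℂ] K)} {Bd : Set K} {ms : D → Set Γ → ℝ}
  {Br : ℝ → Set Γ} {G1 G2 : Γ → ℝ} {π : D →* (K →L[ℂ] K)} {b : D}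

theorem not_tight (h : CN.SysF mp (fun g => π g) Bd ms (Subgroup.zpowers b) Br G1 G2)
    (he : Esc (st mp) (fun g => π g) Bd (Subgroup.zpowers b) (pw b)) {η : K} (hη : η ≠ 0)
    (H : ∀ ε : ℝ, 0 < ε → ∃ F : Set Γ, F.Finite ∧ ∀ u ∈ Subgroup.zpowers b,
      ‖st mp Fᶜ (π u η)‖ ≤ ε) : False := by
  have hn : 0 < ‖η‖ := norm_pos_iff.2 hη
  obtain ⟨F, hF, hF2⟩ := H (‖η‖ / 4) (by positivity)
  have hprj := h.sys.prj
  have h1 := hprj.tendsto_finite (f := fun w => π w η) (l := pw b)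
    (fun g => CN.esc2 h.sys he g η) hF
  haveI : (pw b).NeBot := by unfold pw; infer_instance
  have h2 := ((Metric.tendsto_nhds.mp h1) (‖η‖ / 4) (by positivity)).and (pw_mem b)
  obtain ⟨w, hw1, hw2⟩ := h2.exists
  rw [dist_zero_right, norm_norm] at hw1
  have h3 := hF2 w hw2
  have h4 : ‖π w η‖ = ‖η‖ := by
    have := h.sys.rep.norm_eq w η
    change ‖π w η‖ = ‖π 1 η‖ at this
    rw [this, map_one]
    rfl
  have h5 := hprj.norm_union_le F Fᶜ (π w η)
  rw [Set.union_compl_self, hprj.univ, ContinuousLinearMap.one_apply] at h5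
  linarith

end esc

section tmod

variable {E : Type} [Group E] [TopologicalSpace E] [IsTopologicalGroup E] [LocallyCompactSpace E]
  [SecondCountableTopology E] [T2Space E] [MeasurableSpace E] [BorelSpace E]
  {Γ : Subgroup E} [DiscreteTopology Γ] [MeasurableSpace (E ⧸ Γ)] [BorelSpace (E ⧸ Γ)]
  {ν : Measure (E ⧸ Γ)} [IsProbabilityMeasure ν] [Countable Γ]
  (hν : ∀ g : E, ν.map (fun x => g • x) = ν)
  {ℋ κ κ' : Type} [Fintype κ] [Fintype κ'] [NormedAddCommGroup ℋ]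
  [InnerProductSpace ℂ ℋ] [CompleteSpace ℋ] {V R₁ R₂ : Γ →* (ℋ →L[ℂ] ℋ)} {ξ : κ → ℋ}
  {ξ' : κ' → ℋ} (hT : Tri V R₁ R₂ ξ)
  (hΓ : ∀ g : Γ, g ≠ 1 → Set.Infinite {y : Γ | ∃ h, y = h * g * h⁻¹}) (hT' : Tri R₁ V R₂ ξ')
  (hh : Hon R₁ R₂ ξ)
  {I : Type} [Fintype I] [DecidableEq I] {kk : I → Type}
  [∀ i, NontriviallyNormedField (kk i)] {NN : I → ℕ} {q : ∀ i, Γ → GG (kk i) (NN i)}
  {s : Γ → ℝ} {Br : ℝ → Set Γ} {k : Type} [NontriviallyNormedField k] [ProperSpace k] {N : ℕ}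
  {ι : GG k N →* E} {a a' : E →* PG k (N + 1)}

include hΓ hT' hh

/-- **One wall, one coordinate**, with a passive size. -/
theorem tau_wallM {c : ℂ}
    (hP : PicF (H34.Ind.pi (H85.cdat ν hν) (V := V) hT.adjV) (H34.Ind.lam (H85.cdat ν hν) R₁)
      (WT (H85.cdat ν hν) R₂) (fun i => (Lp.const 2 (H85.cdat ν hν).μ (c • ξ i) : Lp ℋ 2 _)))
    (hN : ∀ i, 1 ≤ NN i) (hq : ∀ i, PH (q i)) (hs : Len s)
    (disc : ∀ C : ℝ, {γ : Γ | (∀ j, nm (q j γ) ≤ C) ∧ s γ ≤ C}.Finite) (h : RG q Br)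
    (hmix : ∀ i (r : ℝ), ∃ r' : ℝ, ∀ γ, r' < nm (q i γ) → r' < s γ → γ ∈ Br r)
    (hA : Adm ι a a') {v : kˣ} (hv : ‖(v : k)‖ < 1) (hz : Cz v ι a a')
    (nrm : ∀ ε : ℝ, 0 < ε → ∃ r, ∀ u ∈ Subgroup.zpowers (ι (bw v)),
      msT (H85.cdat ν hν) hT u (Br r) ≤ ε)
    (hdead : ∀ i (ε : ℝ), 0 < ε → ∃ r : ℝ, ∀ u ∈ Subgroup.zpowers (ι (bw v)),
      ‖st (mT (H85.cdat ν hν) hT) {γ | r < s γ}
        (H34.Ind.pi (H85.cdat ν hν) (V := V) hT.adjV u
          (Lp.const 2 (H85.cdat ν hν).μ (c • ξ i)))‖ ≤ ε) :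
    ∃ j : I, ∀ η, ∀ ε : ℝ, 0 < ε → ∃ r : ℝ, ∀ u ∈ Subgroup.zpowers (ι (bw v)),
      ‖st (mT (H85.cdat ν hν) hT) {γ | (∃ i, i ≠ j ∧ r < nm (q i γ)) ∨ r < s γ}
        (H34.Ind.pi (H85.cdat ν hν) (V := V) hT.adjV u η)‖ ≤ ε := by
  have hE := geoE_of_adm hA hv hz
  have hG := coordsO h hmix hN hq hs disc
  have hS : CN.SysF (mT (H85.cdat ν hν) hT)
      (fun g => H34.Ind.pi (H85.cdat ν hν) (V := V) hT.adjV g)
      (BdT (H85.cdat ν hν) hT) (msT (H85.cdat ν hν) hT) (Subgroup.zpowers (ι (bw v))) Br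
      (T1 (Lo q s)) (T2 (Lo q s)) := by
    refine H962.NT.sysN_T (H85.cdat ν hν) hT hΓ hT' hh (fun s u => ?_) (BB_sub hG) nrm
    obtain ⟨C, hC0, hC⟩ := quasi hG s u
    refine ⟨(Fintype.card (Option I) + 1) * C, fun x => ⟨(T1_gap fun j => hC j x).trans ?_,
      T2_gap hC0 fun j => hC j x⟩⟩
    have : (0 : ℝ) ≤ (Fintype.card (Option I) : ℝ) * C := by positivity
    linarith
  have hSr := H962.NT.srcEF_T hν hT hΓ hT' hh (pow_cocompact hA hv) hP
  obtain ⟨j, hj⟩ := H337.NG.one_wallF hSr hG hS hE.moore hE.moore'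
    fun η ε hε => fin_T (H85.cdat ν hν) hT hh η hε
  rcases j with _ | j
  · exfalso
    obtain ⟨l₀, hΩ⟩ : ∃ l₀, (Lp.const 2 (H85.cdat ν hν).μ (c • ξ l₀) : Lp ℋ 2 _) ≠ 0 := by
      by_contra hcon
      push Not at hcon
      have h1 := hP.nΩ
      simp only [hcon, norm_zero] at h1
      norm_num at h1
    refine not_tight hS hSr.esc1 hΩ fun ε hε => ?_
    obtain ⟨r1, hr1⟩ := hj (Lp.const 2 (H85.cdat ν hν).μ (c • ξ l₀)) (ε / 2) (half_pos hε)
    obtain ⟨r2, hr2⟩ := hdead l₀ (ε / 2) (half_pos hε)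
    refine ⟨{γ | ∀ j, Lo q s j γ ≤ max r1 r2}, hG.fin _, fun u hu => ?_⟩
    have hsub : {γ : Γ | ∀ j, Lo q s j γ ≤ max r1 r2}ᶜ ⊆
        {γ | ∃ i, i ≠ none ∧ r1 < Lo q s i γ} ∪ {γ | r2 < s γ} := by
      intro γ hγ
      rw [Set.mem_compl_iff, Set.mem_setOf_eq] at hγ
      push Not at hγ
      obtain ⟨j, hj⟩ := hγ
      rcases j with _ | j
      · exact Or.inr ((le_max_right _ _).trans_lt hj)
      · exact Or.inl ⟨some j, by simp, (le_max_left _ _).trans_lt hj⟩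
    have h1 := hS.sys.prj.mono hsub
      (H34.Ind.pi (H85.cdat ν hν) (V := V) hT.adjV u (Lp.const 2 (H85.cdat ν hν).μ (c • ξ l₀)))
    have h2 := hS.sys.prj.norm_union_le {γ : Γ | ∃ i, i ≠ none ∧ r1 < Lo q s i γ} {γ | r2 < s γ}
      (H34.Ind.pi (H85.cdat ν hν) (V := V) hT.adjV u (Lp.const 2 (H85.cdat ν hν).μ (c • ξ l₀)))
    have h3 := hr1 u hu
    have h4 := hr2 u hu
    linarith
  · refine ⟨j, fun η ε hε => ?_⟩
    obtain ⟨r, hr⟩ := hj η ε hε
    refine ⟨max (Real.exp r) r, fun u hu => ?_⟩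
    refine le_trans (hS.sys.prj.mono ?_ _) (hr u hu)
    rintro γ (⟨i, hi, h1⟩ | h1)
    · refine ⟨some i, fun e => hi (Option.some.inj e), ?_⟩
      change r < Real.log (1 + nm (q i γ))
      rw [Real.lt_log_iff_exp_lt (by have := one_le_nm (q := q) i γ; linarith)]
      have := (le_max_left (Real.exp r) r).trans_lt h1
      linarith
    · exact ⟨none, by simp, (le_max_right (Real.exp r) r).trans_lt h1⟩

end tmod

end Vale.Agent.P092.H515.Mx
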