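import Vale.Agent.P092.H515.Mx.Fam
import Vale.Agent.P092.H305.Mx.StartP
import Vale.Agent.P092.H337.NGk

/-!
P092 (helper515), [MIX], part 6: the bijection between the factors of the source and the coordinates
of the target, with a passive size which is tight along the source.
-/

set_option linter.all false

open scoped InnerProductSpace ENNReal
open Matrix MeasureTheory Filter Topology ContinuousLinearMap

namespace Vale.Agent.P092.H515.Mx

open Vale.Agent.P092.H761 (SharpData GChain HS big mem_big big_anti Geo Gaps)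
open Vale.Agent.P092.H538 (ind ind_pos ind_neg ind_nonneg)
open Vale.Agent.P092.H933 (LocK BCart)
open Vale.Agent.P092.H534.GK (Crt)
open Vale.Agent.P092.H221.GapsC (lg bcart_of_crt)
open Vale.Agent.P092.H776.NG (nmx)
open Vale.Agent.P092.RC (GG PG YY)
open Vale.Agent.P092.SN (PH nm bw)
open Vale.Agent.P092.H701 (HChain tor)
open Vale.Agent.P092.H261 (PingT gchain_of_hchain)
open Vale.Agent.P092.H305.Mx.P (DeadP)
open Vale.Agent.P092.H584.Tau (bcart_gap_le hs_mem tau_bij)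

/-- the gaps of one coordinate are bounded in terms of its norm -/
theorem gap_up {Γ I' : Type} {n : I' → ℕ} {k' : I' → Type}
    [∀ j, NontriviallyNormedField (k' j)] (hn : ∀ i, 0 < n i)
    {q : ∀ i, Γ → SpecialLinearGroup (Fin (n i)) (k' i)}
    {gap : (Σ o : Option I', Fin (nn n o - 1)) → Γ → ℝ}
    (hcrt : ∀ i, ∃ c C : ℝ, 0 < c ∧ ∀ γ, ∃ a U U' V V', Crt (q i γ).1 a U U' V V' ∧
        ∀ j : Fin (n i - 1), |gap ⟨some i, j⟩ γ - c * lg a j| ≤ C) (i : I') (R : ℝ) :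
    ∃ R' : ℝ, ∀ γ, nmx (q i γ).1 ≤ R → ∀ a : Fin (n i - 1), gap ⟨some i, a⟩ γ ≤ R' := by
  obtain ⟨c, C, hc, H⟩ := hcrt i
  obtain ⟨R', hR'⟩ := bcart_gap_le (k := k' i) (hn i) hc (max C 1) R
  refine ⟨R', fun γ hγ => ?_⟩
  obtain ⟨a, U, U', V, V', h, hx⟩ := H γ
  have hd : (q i γ).1.det ≠ 0 := by rw [(q i γ).2]; exact one_ne_zero
  exact hR' (q i γ).1 (fun j => gap ⟨some i, j⟩ γ) (by rw [(q i γ).2, norm_one])
    (bcart_of_crt h (h.ne hd) (le_max_right _ _) fun j => (hx j).trans (le_max_left _ _)) hγ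

section abs

variable {I' : Type} [Fintype I'] [DecidableEq I'] {n : I' → ℕ}
  {E : Type} [Group E] [TopologicalSpace E] [MeasurableSpace E] [BorelSpace E]
  {Γ : Type} [Group Γ] [DecidableEq Γ] {t : ℝ} {mass : E → (Γ → ℝ) → ℝ} {s w : Γ → ℝ}
  {gap : (Σ o : Option I', Fin (nn n o - 1)) → Γ → ℝ}

/-- The length of a chain of a subgroup which is tight outside the coordinate `j`. -/
theorem tau_subO (hd : SharpData t mass (fun K : Set E => IsCompact K) (PingT E))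
    (hs : PSys gap w (fun θ => ∀ x ∈ θ, x.1 ≠ none)) (hfin : ∀ R : ℝ, {g | w g ≤ R}.Finite)
    (hgs : ∀ x γ, gap ⟨none, x⟩ γ = s γ) {z : I' → Γ → ℝ}
    (hup : ∀ i (r : ℝ), ∃ r' : ℝ, ∀ γ, z i γ ≤ r → ∀ a : Fin (n i - 1), gap ⟨some i, a⟩ γ ≤ r')
    {m : ℕ} (C : HChain E m) {S : Subgroup E} (hC : ∀ x M, C.b x M ∈ S)
    (hdead : ∀ ε : ℝ, 0 < ε → ∃ r : ℝ, ∀ u ∈ S, mass u (ind fun γ => r < s γ) ≤ ε) {j : I'}
    (ht : ∀ ε : ℝ, 0 < ε → ∃ r : ℝ, ∀ u ∈ S,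
      mass u (ind fun γ => ∃ j', j' ≠ j ∧ r < z j' γ) ≤ ε) :
    m ≤ n j - 1 := by
  classical
  obtain ⟨cl, -⟩ : ∃ cl : (Σ o : Option I', Fin (nn n o - 1)) ≃
      Fin (Fintype.card (Σ o : Option I', Fin (nn n o - 1))), True :=
    ⟨Fintype.equivFin _, trivial⟩
  have hg := hs.gaps hfin (fun x => cl x)
    (fun R => ⟨R, fun i j hij g hg => by rw [← cl.injective hij]; exact hg⟩)
  obtain ⟨P, hP⟩ : ∃ P : Finset (Fin (Fintype.card (Σ o : Option I', Fin (nn n o - 1)))),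
      ∀ a, a ∈ P ↔ (cl.symm a).1 ≠ none :=
    ⟨Finset.univ.filter fun a => (cl.symm a).1 ≠ none, fun a => by simp⟩
  obtain ⟨P', hP'⟩ : ∃ P' : Finset (Fin (Fintype.card (Σ o : Option I', Fin (nn n o - 1)))),
      P' = Finset.univ.image fun a : Fin (n j - 1) => cl ⟨some j, a⟩ := ⟨_, rfl⟩
  have hcard : P'.card ≤ n j - 1 := by
    rw [hP']
    refine Finset.card_image_le.trans ?_
    rw [Finset.card_univ, Fintype.card_fin]
  have hD : DeadP mass gap (fun x => cl x) C.b P := by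
    intro ε hε
    obtain ⟨R, hR⟩ := hdead ε hε
    refine ⟨R + 1, fun n x hx => (hd.ind_mono x (Q := fun g => R < s g) fun g hg' => ?_).trans
      (hR x (hs_mem hC hx))⟩
    obtain ⟨a, ha, hab⟩ := hg'
    obtain ⟨y, hy1, hy2⟩ := mem_big.1 hab
    have h1 : (cl.symm a).1 = none := by
      by_contra h
      exact ha ((hP a).2 h)
    have hy3 : cl y = a := hy1
    rw [← hy3, Equiv.symm_apply_apply] at h1
    obtain ⟨o, y⟩ := y
    obtain rfl : o = none := h1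
    rw [hgs] at hy2
    linarith
  refine le_trans (H305.Mx.P.tau_le hd hg (fun θ _ _ hθ => hs.geo hfin θ fun x hx hn => ?_) hD
    (gchain_of_hchain C) (P' := P') fun c hc => ?_) hcard
  · have h1 := (hP _).1 (hθ x hx)
    exact h1 (by rw [Equiv.symm_apply_apply]; exact hn)
  obtain ⟨r, hr⟩ := ht (c / 4) (by linarith)
  obtain ⟨r₂, hr₂⟩ := hdead (c / 4) (by linarith)
  choose r' hr' using fun i => hup i r
  refine ⟨max (∑ i, |r' i|) r₂ + 1, fun h hh => ?_⟩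
  have h1 := hd.union h (Finset.univ : Finset Bool)
    (fun g => ¬ big gap (fun x => cl x) (max (∑ i, |r' i|) r₂ + 1) g ⊆ P')
    (fun b g => if b then ∃ j', j' ≠ j ∧ r < z j' g else r₂ < s g) fun g hg' => ?_
  · rw [Fintype.sum_bool] at h1
    have h2 := hr h (hs_mem hC hh)
    have h3 := hr₂ h (hs_mem hC hh)
    simp only [if_true, Bool.false_eq_true, if_false] at h1
    linarith
  · obtain ⟨a, ha1, ha2⟩ := Finset.not_subset.1 hg'
    obtain ⟨⟨o, y⟩, hy1, hy2⟩ := mem_big.1 ha1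
    rcases o with _ | i
    · refine ⟨false, Finset.mem_univ _, ?_⟩
      simp only [Bool.false_eq_true, if_false]
      rw [hgs] at hy2
      have := le_max_right (∑ i, |r' i|) r₂
      linarith
    · refine ⟨true, Finset.mem_univ _, ?_⟩
      rw [if_pos rfl]
      have hij : i ≠ j := by
        rintro rfl
        refine ha2 ?_
        rw [hP']
        exact Finset.mem_image.2 ⟨y, Finset.mem_univ _, hy1⟩
      refine ⟨i, hij, ?_⟩
      by_contra hc2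
      have h4 := hr' i g (not_lt.1 hc2) y
      have h5 : r' i ≤ ∑ i, |r' i| := (le_abs_self _).trans
        (Finset.single_le_sum (f := fun i => |r' i|) (fun i _ => abs_nonneg _) (Finset.mem_univ i))
      have h6 := le_max_left (∑ i, |r' i|) r₂
      linarith

end abs

section glue

variable {I I' : Type} [Fintype I] [DecidableEq I] [Fintype I'] [DecidableEq I']
  {k : I → Type} [∀ i, NontriviallyNormedField (k i)] [∀ i, ProperSpace (k i)]
  {N : I → ℕ} {n : I' → ℕ}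
  {E : Type} [Group E] [TopologicalSpace E] [MeasurableSpace E] [BorelSpace E]
  {Γ : Type} [Group Γ] {t : ℝ} {mass : E → (Γ → ℝ) → ℝ} {s w : Γ → ℝ}

/-- **The rank inequality of one coordinate of the target.** -/
theorem tau_ineqO [DecidableEq Γ]
    (hd : SharpData t mass (fun K : Set E => IsCompact K) (PingT E))
    (hN : ∀ i, 0 < N i) (ι : ∀ i, GG (k i) (N i) →* E) (a : ∀ i, E →* PG (k i) (N i + 1))
    (hι : ∀ i, Continuous (ι i)) (ha : ∀ i, Continuous (a i))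
    (hcomp : ∀ i g (x : YY (k i) (N i)), a i (ι i g) • x = g • x)
    (hcomm : ∀ i j, i ≠ j → ∀ g h, Commute (ι i g) (ι j h))
    {gap : (Σ o : Option I', Fin (nn n o - 1)) → Γ → ℝ}
    (hs : PSys gap w (fun θ => ∀ x ∈ θ, x.1 ≠ none)) (hfin : ∀ R : ℝ, {g | w g ≤ R}.Finite)
    (hgs : ∀ x γ, gap ⟨none, x⟩ γ = s γ) {z : I' → Γ → ℝ}
    (hup : ∀ i (r : ℝ), ∃ r' : ℝ, ∀ γ, z i γ ≤ r → ∀ a : Fin (n i - 1), gap ⟨some i, a⟩ γ ≤ r')
    {T : Finset I}
    (hdead : ∀ ε : ℝ, 0 < ε → ∃ r : ℝ, ∀ u ∈ Subgroup.closure (⋃ i ∈ T, Set.range (ι i)),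
      mass u (ind fun γ => r < s γ) ≤ ε) {j : I'}
    (ht : ∀ ε : ℝ, 0 < ε → ∃ r : ℝ, ∀ u ∈ Subgroup.closure (⋃ i ∈ T, Set.range (ι i)),
      mass u (ind fun γ => ∃ j', j' ≠ j ∧ r < z j' γ) ≤ ε) :
    ∑ i ∈ T, N i ≤ n j - 1 := by
  classical
  rcases T.eq_empty_or_nonempty with hT | ⟨i₀, hi₀⟩
  · rw [hT, Finset.sum_empty]
    exact Nat.zero_le _
  obtain ⟨w, hw1⟩ : ∃ w : ∀ i : T, k i, ∀ i, 1 < ‖w i‖ := by
    choose w hw using fun i : T => NormedField.exists_one_lt_norm (k i)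
    exact ⟨w, hw⟩
  have hw0 : ∀ i, w i ≠ 0 := fun i h0 => by
    have := hw1 i
    rw [h0, norm_zero] at this
    exact absurd this (not_lt.2 zero_le_one)
  obtain ⟨e, -, ⟨C, hC⟩, -⟩ := H776.NE.exists_chE (I := T) (k := fun i => k i)
    (n := fun i => N i) (fun i => hN i) (fun i => ι i) (fun i => a i) (fun i => hι i)
    (fun i => ha i) (fun i => hcomp i) (fun i j hij => hcomm i j fun h => hij (Subtype.ext h))
    w hw1 hw0 ⟨i₀, hi₀⟩
  have hmem : ∀ x M, C.b x M ∈ Subgroup.closure (⋃ i ∈ T, Set.range (ι i)) := by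
    intro x M
    rw [hC]
    refine pow_mem (Subgroup.subset_closure ?_) M
    rw [Set.mem_iUnion₂]
    exact ⟨(e x).1, (e x).1.2, ⟨_, rfl⟩⟩
  have h1 := tau_subO hd hs hfin hgs hup C hmem hdead ht
  rwa [Finset.sum_coe_sort T N] at h1

/-- **One family**: if all the elements of the factors over `j` are tight outside the
coordinate `j`, for all `j`, then `τ` is a bijection and preserves the ranks. -/
theorem tau_glueO {k' : I → Type} [∀ j, NontriviallyNormedField (k' j)] [∀ j, ProperSpace (k' j)]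
    [DecidableEq Γ] (hd : SharpData t mass (fun K : Set E => IsCompact K) (PingT E))
    (hk' : ∀ j, LocK (k' j)) (hN : ∀ i, 0 < N i) (ι : ∀ i, GG (k i) (N i) →* E)
    (a : ∀ i, E →* PG (k i) (N i + 1)) (hι : ∀ i, Continuous (ι i)) (ha : ∀ i, Continuous (a i))
    (hcomp : ∀ i g (x : YY (k i) (N i)), a i (ι i g) • x = g • x)
    (hcomm : ∀ i j, i ≠ j → ∀ g h, Commute (ι i g) (ι j h))
    (q : ∀ j, Γ → GG (k' j) (N j)) (hq : ∀ j, PH (q j)) (hs : Len s)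
    (disc : ∀ C : ℝ, {γ : Γ | (∀ j, nm (q j γ) ≤ C) ∧ s γ ≤ C}.Finite)
    {D : Subgroup E} (hD : ∀ i g, ι i g ∈ D)
    (hdead : ∀ ε : ℝ, 0 < ε → ∃ r : ℝ, ∀ u ∈ D, mass u (ind fun γ => r < s γ) ≤ ε) {τ : I → I}
    (ht : ∀ j, ∀ ε : ℝ, 0 < ε → ∃ r : ℝ,
      ∀ u ∈ Subgroup.closure (⋃ i ∈ {i | τ i = j}, Set.range (ι i)),
        mass u (ind fun γ => ∃ j', j' ≠ j ∧ r < nm (q j' γ)) ≤ ε) :
    Function.Bijective τ ∧ ∀ i, N (τ i) = N i := by
  obtain ⟨gap, w, hp, hfin, hgs, -, -, -, -, hcrt, -⟩ := psys_fam (n := fun j => N j + 1) hk'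
    (fun j => by have := hN j; omega) q hq hs disc
  refine tau_bij hN fun j => ?_
  have e : (⋃ i ∈ Finset.univ.filter (fun i => τ i = j), Set.range (ι i)) =
      ⋃ i ∈ {i | τ i = j}, Set.range (ι i) := by
    ext x
    simp
  have hle : Subgroup.closure (⋃ i ∈ Finset.univ.filter (fun i => τ i = j), Set.range (ι i)) ≤
      D := by
    rw [Subgroup.closure_le]
    refine Set.iUnion₂_subset fun i _ => ?_
    rintro _ ⟨g, rfl⟩
    exact hD i g
  have h1 := tau_ineqO (T := Finset.univ.filter fun i => τ i = j) (j := j)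
    (z := fun j γ => nm (q j γ)) hd hN ι a hι ha hcomp hcomm hp hfin hgs
    (fun i r => gap_up (n := fun j => N j + 1) (fun i => Nat.succ_pos _) hcrt i r)
    (fun ε hε => by
      obtain ⟨r, hr⟩ := hdead ε hε
      exact ⟨r, fun u hu => hr u (hle hu)⟩)
    (by rw [e]; exact ht j)
  exact h1

end glue

section fam

open Vale.Agent.P092.RC (PicF TRNF ampH ampW ampO exists_emb)
open Vale.Agent.P092.SD (MsF)
open Vale.Agent.P092.H333.Amp
open Vale.Agent.P092.H515.Tau (KW NT)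
open Vale.Agent.P092.H337.NG.TW (tight_fib tight_facF nt_amp amp_sq)

variable {I : Type} [Fintype I] [DecidableEq I] {k k' : I → Type}
  [∀ i, NontriviallyNormedField (k i)] [∀ i, ProperSpace (k i)]
  [∀ i, NontriviallyNormedField (k' i)] [∀ i, ProperSpace (k' i)] {N : I → ℕ}
  {E : Type} [Group E] [TopologicalSpace E] [IsTopologicalGroup E] [MeasurableSpace E]
  [BorelSpace E]
  {Γ K κ : Type} [Group Γ] [Countable Γ] [NormedAddCommGroup K] [InnerProductSpace ℂ K]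
  [CompleteSpace K] [Fintype κ] {π : E →* (K →L[ℂ] K)} {lam : Γ →* (K →L[ℂ] K)}
  {W : Set (K →L[ℂ] K)} {Ω : κ → K} {m : Set Γ → (K →L[ℂ] K)} {mass : E → (Γ → ℝ) → ℝ}
  {s : Γ → ℝ}

/-- **The matching of the factors of the source with the coordinates of the target**, with a passive
size which is tight along the source. -/
theorem tau_outM (hd : ∀ _ : DecidableEq Γ, ∃ t : ℝ,
      SharpData t mass (fun K : Set E => IsCompact K) (PingT E)) {c : ℝ}
    (hm : ∀ (u : E) (S : Set Γ), mass u (ind fun γ => γ ∈ S) ≤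
      c * ∑ l, ‖m S (π u (Ω l))‖ ^ 2)
    (hP : PicF π lam W Ω) (hM : MsF lam W Ω m)
    (hk' : ∀ j, LocK (k' j)) (hN : ∀ i, 0 < N i) {ι : ∀ i, GG (k i) (N i) →* E}
    {a : ∀ i, E →* PG (k i) (N i + 1)} (hι : ∀ i, Continuous (ι i)) (ha : ∀ i, Continuous (a i))
    (hcomp : ∀ i g (x : YY (k i) (N i)), a i (ι i g) • x = g • x)
    (hcomm : ∀ i j, i ≠ j → ∀ g h, Commute (ι i g) (ι j h))
    {q : ∀ j, Γ → GG (k' j) (N j)} (hq : ∀ j, PH (q j)) (hs : Len s)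
    (disc : ∀ C : ℝ, {γ : Γ | (∀ j, nm (q j γ) ≤ C) ∧ s γ ≤ C}.Finite) {w : ∀ i, (k i)ˣ}
    (hw : ∀ i, KW (N i) (w i)) {D : Subgroup E} (hD : ∀ i g, ι i g ∈ D)
    (hdead : ∀ ε : ℝ, 0 < ε → ∃ r : ℝ, ∀ u ∈ D, mass u (ind fun γ => r < s γ) ≤ ε)
    (h1 : ∀ i, ∃ j, ∀ (ξ : K) (ε : ℝ), 0 < ε → ∃ r : ℝ, ∀ v ∈ Subgroup.zpowers (ι i (bw (w i))),
      ‖m {γ | (∃ j', j' ≠ j ∧ r < nm (q j' γ)) ∨ r < s γ} (π v ξ)‖ ≤ ε) :
    ∃ τ : I → I, Function.Bijective τ ∧ (∀ i, N (τ i) = N i) ∧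
      (∀ i (ξ : K) (ε : ℝ), 0 < ε → ∃ r : ℝ, ∀ v ∈ Subgroup.zpowers (ι i (bw (w i))),
        ‖m {γ | (∃ j', j' ≠ τ i ∧ r < nm (q j' γ)) ∨ r < s γ} (π v ξ)‖ ≤ ε) ∧
      ∀ i (ε : ℝ), 0 < ε → ∃ r : ℝ, ∀ g : GG (k i) (N i), ∀ l,
        ‖m {γ | ∃ j', j' ≠ τ i ∧ r < nm (q j' γ)} (π (ι i g) (Ω l))‖ ≤ ε := by
  classical
  choose τ hτ using h1
  have hF : ∀ i, ∀ ε : ℝ, 0 < ε → ∃ r : ℝ, ∀ v ∈ Subgroup.zpowers (ι i (bw (w i))), ∀ l,
      ‖m {γ | ∃ j', j' ≠ τ i ∧ r < nm (q j' γ)} (π v (Ω l))‖ ≤ ε := by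
    intro i ε hε
    choose r hr using fun l => hτ i (Ω l) ε hε
    refine ⟨∑ l, |r l|, fun v hv l => (hM.mono ?_ _).trans (hr l v hv)⟩
    rintro γ ⟨j', h2, h3⟩
    exact Or.inl ⟨j', h2, lt_of_le_of_lt ((le_abs_self _).trans (Finset.single_le_sum
      (f := fun l => |r l|) (fun l _ => abs_nonneg _) (Finset.mem_univ l))) h3⟩
  obtain ⟨Q, _, _, ⟨e⟩⟩ := exists_emb κ
  have h2 : ∀ j, ∀ ε : ℝ, 0 < ε → ∃ r : ℝ,
      ∀ u ∈ Subgroup.closure (⋃ i ∈ {i | τ i = j}, Set.range (ι i)),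
        ‖amp (Q := Q) (m {γ | ∃ j', j' ≠ j ∧ r < nm (q j' γ)})
          (ampH Q π u (ampO e Ω))‖ ≤ ε := fun j =>
    tight_fib (hP.ampW e) (hM.amp e) hq hw hι hcomm (τ := τ)
      (fun i => (nt_amp e hM q (τ i) (Subgroup.zpowers (ι i (bw (w i))) : Set E)).2 (hF i)) j
  obtain ⟨t, hd⟩ := hd (Classical.decEq Γ)
  obtain ⟨h3, h4⟩ := tau_glueO hd hk' hN ι a hι ha hcomp hcomm q hq hs disc hD hdead
    fun j ε hε => by
    obtain ⟨r, hr⟩ := h2 j (min (ε / (|c| + 1)) 1) (lt_min (by positivity) zero_lt_one)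
    refine ⟨r, fun u hu => ?_⟩
    have h5 := hr u hu
    have h6 : mass u (ind fun γ => ∃ j', j' ≠ j ∧ r < nm (q j' γ)) ≤
        c * ∑ l, ‖m {γ | ∃ j', j' ≠ j ∧ r < nm (q j' γ)} (π u (Ω l))‖ ^ 2 :=
      hm u {γ | ∃ j', j' ≠ j ∧ r < nm (q j' γ)}
    rw [← amp_sq e Ω _ π u] at h6
    obtain ⟨x, hx⟩ : ∃ x : ℝ, x = ‖amp (Q := Q) (m {γ | ∃ j', j' ≠ j ∧ r < nm (q j' γ)})
      (ampH Q π u (ampO e Ω))‖ := ⟨_, rfl⟩
    have hx0 : 0 ≤ x := by rw [hx]; exact norm_nonneg _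
    rw [← hx] at h5 h6
    have h7 : x ^ 2 ≤ ε / (|c| + 1) := by
      have h8 : x ≤ 1 := h5.trans (min_le_right _ _)
      have h9 : x ≤ ε / (|c| + 1) := h5.trans (min_le_left _ _)
      nlinarith
    have h10 : c * x ^ 2 ≤ |c| * (ε / (|c| + 1)) :=
      mul_le_mul (le_abs_self c) h7 (sq_nonneg _) (abs_nonneg _)
    have h11 : |c| * (ε / (|c| + 1)) ≤ ε := by
      rw [mul_div_assoc', div_le_iff₀ (by positivity)]
      nlinarith [abs_nonneg c]
    exact h6.trans (h10.trans h11)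
  exact ⟨τ, h3, h4, hτ, fun i => tight_facF hP hM hq (hw i) (hι i) (hF i)⟩

end fam

end Vale.Agent.P092.H515.Mx
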