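import Vale.Agent.P092.H962.NT.OutT
import Vale.Agent.P092.H962.MX.OutM
import Vale.Agent.P092.H515.Mx.TauM
import Vale.Agent.P092.H515.Mx.TauO

/-!
P092 (helper515), [MIX], all `t`, part 7: the output of the wall analysis with a passive size which
is tight along the source, from the positions.
-/

set_option linter.all false

open scoped InnerProductSpace ENNReal LinearAlgebra.Projectivization
open Filter Topology ContinuousLinearMap MeasureTheory TopologicalSpace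

namespace Vale.Agent.P092.H515.Mx

open Vale.Agent.P092.SR
open Vale.Agent.P092.H962.NT
open Vale.Agent.P092.H21 (mT msT WT Hon nc nc_ne)
open Vale.Agent.P092.H85 (cdat)
open Vale.Agent.P092.H34.HMK (mX mX_ind sharp_mX)
open Vale.Agent.P092.H859.CL (st)
open Vale.Agent.P092.RC (GG PG YY ct PicF)
open Vale.Agent.P092.SN (PH Adm bw nm)
open Vale.Agent.P092.H368.SN (Cz)
open Vale.Agent.P092.H337.NG (G2 RG SizS Siz)

/-- a length function is a size -/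
theorem Len.sizS {Γ : Type} [Group Γ] {s : Γ → ℝ} (h : Len s) : SizS s where
  siz := ⟨fun x y => ⟨s x + s y, fun g => h.gap x y g⟩, fun R => ⟨R + R, fun x y hx hy => by
    have h1 := h.mul y x⁻¹
    rw [h.inv] at h1
    linarith⟩⟩
  inv := ⟨0, fun x => by rw [h.inv, sub_self, abs_zero]⟩

section mass

variable {E : Type} [Group E] [TopologicalSpace E] [IsTopologicalGroup E] [LocallyCompactSpace E]
  [SecondCountableTopology E] [T2Space E] [MeasurableSpace E] [BorelSpace E]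
  {Γ : Subgroup E} [DiscreteTopology Γ] [Countable Γ] [MeasurableSpace (E ⧸ Γ)]
  [BorelSpace (E ⧸ Γ)] {ν : Measure (E ⧸ Γ)} [IsProbabilityMeasure ν]
  (hν : ∀ g : E, ν.map (fun x => g • x) = ν)
  {κ κ' ℋ : Type} [Fintype κ] [Fintype κ'] [NormedAddCommGroup ℋ] [InnerProductSpace ℂ ℋ]
  [CompleteSpace ℋ] {V R₁ R₂ : Γ →* (ℋ →L[ℂ] ℋ)} {ξ : κ → ℋ} {ξ' : κ' → ℋ}
  (hT : Tri V R₁ R₂ ξ)
  (hΓ : ∀ g : Γ, g ≠ 1 → Set.Infinite {y : Γ | ∃ h, y = h * g * h⁻¹})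
  (hT' : Tri R₁ V R₂ ξ') (hh : Hon R₁ R₂ ξ)

include hh hT' hΓ

/-- From the vectors of the normalised family to masses. -/
theorem mass_of_vec {X : Type} {u : X → E} {S : ℝ → Set Γ}
    (h : ∀ ε : ℝ, 0 < ε → ∃ r : ℝ, ∀ x, ∀ c, ‖st (mT (cdat ν hν) hT) (S r)
      (H34.Ind.pi (cdat ν hν) (V := V) hT.adjV (u x) (OmN hν ξ c))‖ ≤ ε) (ε : ℝ) (hε : 0 < ε) :
    ∃ r : ℝ, ∀ x, mX hν hT (u x) (H538.ind fun γ => γ ∈ S r) ≤ ε := by
  obtain ⟨A, hA⟩ : ∃ A : ℝ, A = (‖nc ξ‖ ^ 2)⁻¹ * Fintype.card κ := ⟨_, rfl⟩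
  have hA0 : 0 ≤ A := by rw [hA]; positivity
  have hδ : 0 < ε / (A + 1) := by positivity
  obtain ⟨r, hr⟩ := h (min 1 (ε / (A + 1))) (lt_min one_pos hδ)
  refine ⟨r, fun x => ?_⟩
  rw [mX_nrm hν hT hΓ hT' hh]
  have h1 : ∀ c, ‖st (mT (cdat ν hν) hT) (S r) (H34.Ind.pi (cdat ν hν) (V := V) hT.adjV (u x)
      (OmN hν ξ c))‖ ^ 2 ≤ ε / (A + 1) := by
    intro c
    have h2 := hr x c
    have h3 := h2.trans (min_le_left _ _)
    have h4 := h2.trans (min_le_right _ _)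
    have h5 := norm_nonneg (st (mT (cdat ν hν) hT) (S r)
      (H34.Ind.pi (cdat ν hν) (V := V) hT.adjV (u x) (OmN hν ξ c)))
    nlinarith
  have h2 : ∑ c, ‖st (mT (cdat ν hν) hT) (S r) (H34.Ind.pi (cdat ν hν) (V := V) hT.adjV (u x)
      (OmN hν ξ c))‖ ^ 2 ≤ Fintype.card κ * (ε / (A + 1)) := by
    refine (Finset.sum_le_sum fun c _ => h1 c).trans ?_
    rw [Finset.sum_const, Finset.card_univ, nsmul_eq_mul]
  have h3 : (0 : ℝ) ≤ (‖nc ξ‖ ^ 2)⁻¹ := by positivity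
  calc (‖nc ξ‖ ^ 2)⁻¹ * ∑ c, ‖st (mT (cdat ν hν) hT) (S r)
        (H34.Ind.pi (cdat ν hν) (V := V) hT.adjV (u x) (OmN hν ξ c))‖ ^ 2
      ≤ (‖nc ξ‖ ^ 2)⁻¹ * (Fintype.card κ * (ε / (A + 1))) := mul_le_mul_of_nonneg_left h2 h3
    _ = A * (ε / (A + 1)) := by rw [hA]; ring
    _ ≤ ε := by
      rw [mul_div_assoc', div_le_iff₀ (by positivity)]
      nlinarith

variable (hP : PicF (H34.Ind.pi (cdat ν hν) (V := V) hT.adjV) (H34.Ind.lam (cdat ν hν) R₁)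
    (WT (cdat ν hν) R₂) (OmN hν ξ))
  {J : Type} [Fintype J] [DecidableEq J]
  {k l : J → Type} [∀ j, NontriviallyNormedField (k j)] [∀ j, ProperSpace (k j)]
  [∀ j, NontriviallyNormedField (l j)] [∀ j, ProperSpace (l j)] {N : J → ℕ}

include hP

/-- **The output of the wall analysis with a passive size**, from the positions. -/
theorem outM_of (hk : ∀ j, H933.LocK (k j)) (hl : ∀ j, H933.LocK (l j))
    {ι : ∀ j, GG (k j) (N j) →* E} {a a' : ∀ j, E →* PG (k j) (N j + 1)}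
    {w : ∀ j, (k j)ˣ} {q : ∀ j, Γ → GG (l j) (N j)} (hA : ∀ j, Adm (ι j) (a j) (a' j))
    (hcomm : ∀ i j, i ≠ j → ∀ g h, Commute (ι i g) (ι j h))
    (hw : ∀ j, ‖(w j : k j)‖ < 1) (hz : ∀ j, Cz (w j) (ι j) (a j) (a' j))
    (hq : ∀ j, PH (q j)) {s : Γ → ℝ} (hs : Len s)
    (fin : ∀ C : ℝ, {γ : Γ | (∀ j, nm (q j γ) ≤ C) ∧ s γ ≤ C}.Finite)
    {D : Subgroup E} (hD : ∀ i g, ι i g ∈ D)
    (hdead : ∀ ε : ℝ, 0 < ε → ∃ r : ℝ, ∀ u ∈ D, ∀ c, ‖st (mT (cdat ν hν) hT) {γ | r < s γ}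
      (H34.Ind.pi (cdat ν hν) (V := V) hT.adjV u (OmN hν ξ c))‖ ≤ ε)
    (hpos : ∀ i j, N j = N i →
      (∀ ε : ℝ, 0 < ε → ∃ r : ℝ, ∀ g : GG (k i) (N i), ∀ c,
        ‖st (mT (cdat ν hν) hT) {γ | (∃ j', j' ≠ j ∧ r < nm (q j' γ)) ∨ r < s γ}
          (H34.Ind.pi (cdat ν hν) (V := V) hT.adjV (ι i g) (OmN hν ξ c))‖ ≤ ε) →
      ∀ b : E, b = ι i (bw (w i)) ∨ b = (ι i (bw (w i)))⁻¹ → ∀ c (ε : ℝ), 0 < ε →
        ∃ r : ℝ, ∀ᶠ t : ℕ in atTop,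
          ‖st (mT (cdat ν hν) hT) {γ | r < G2 (q j γ) ∧ r < G2 (ct (q j γ))}
            (H34.Ind.pi (cdat ν hν) (V := V) hT.adjV (b ^ t) (OmN hν ξ c))‖ ≤ ε) :
    ∃ (Br : ℝ → Set Γ) (τ : J → J), H962.MX.OutM hν hT ι w q s Br τ := by
  have hN2 : ∀ j, 2 ≤ N j := fun j => (hA j).hN
  have hN1 : ∀ j, 1 ≤ N j := fun j => le_trans one_le_two (hN2 j)
  have hM := msF_N hν hT hΓ hT' hh
  have hprj := (H21.fn_T (cdat ν hν) hT hh).prj
  have hdm : ∀ ε : ℝ, 0 < ε → ∃ r : ℝ, ∀ u ∈ D,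
      mX hν hT u (H538.ind fun γ => r < s γ) ≤ ε := by
    intro ε hε
    obtain ⟨r, hr⟩ := mass_of_vec hν hT hΓ hT' hh (u := fun u : D => (u : E))
      (S := fun r => {γ | r < s γ}) (fun ε hε => by
        obtain ⟨r, hr⟩ := hdead ε hε
        exact ⟨r, fun x c => hr x x.2 c⟩) ε hε
    exact ⟨r, fun u hu => hr ⟨u, hu⟩⟩
  have hzp : ∀ i, ∀ u ∈ Subgroup.zpowers (ι i (bw (w i))), u ∈ D := fun i u hu =>
    (Subgroup.zpowers_le.2 (hD i _)) hu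
  obtain ⟨Br, hB, hmix, nrm⟩ := exists_rgS (mass := mX hν hT) (a := a)
    (fun _ => ⟨_, sharp_mX hν hT hT' hΓ⟩) (fun j => hN1 j) (fun j => (hA j).cι)
    (fun j => (hA j).ca) (fun j => (hA j).comp) hcomm hw hl (fun j => hN1 j) le_rfl hq hs fin
    hD hdm
  have nrm' : ∀ i, ∀ ε : ℝ, 0 < ε → ∃ r : ℝ, ∀ u ∈ Subgroup.zpowers (ι i (bw (w i))),
      msT (cdat ν hν) hT u (Br r) ≤ ε := nrm
  obtain ⟨τ, hτ, hτN, t1, t2⟩ := tau_outM (a := a) (mass := mX hν hT)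
    (fun _ => ⟨_, sharp_mX hν hT hT' hΓ⟩)
    (fun u S => (mX_nrm hν hT hΓ hT' hh u S).le) hP hM hl (fun j => hN1 j) (fun j => (hA j).cι)
    (fun j => (hA j).ca) (fun j => (hA j).comp) hcomm hq hs fin
    (fun j => H776.KW.kak_walls (hk j) (w j) (hw j)) hD hdm fun i =>
      tau_wallM hν hT hΓ hT' hh hP hN1 hq hs fin hB hmix (hA i) (hw i) (hz i) (nrm' i)
        fun c ε hε => by
          obtain ⟨r, hr⟩ := hdead ε hε
          exact ⟨r, fun u hu => hr u (hzp i u hu) c⟩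
  have t3 : ∀ i (ε : ℝ), 0 < ε → ∃ r : ℝ, ∀ g : GG (k i) (N i), ∀ c,
      ‖st (mT (cdat ν hν) hT) {γ | (∃ j', j' ≠ τ i ∧ r < nm (q j' γ)) ∨ r < s γ}
        (H34.Ind.pi (cdat ν hν) (V := V) hT.adjV (ι i g) (OmN hν ξ c))‖ ≤ ε := by
    intro i ε hε
    obtain ⟨r1, h1⟩ := t2 i (ε / 2) (half_pos hε)
    obtain ⟨r2, h2⟩ := hdead (ε / 2) (half_pos hε)
    refine ⟨max r1 r2, fun g c => ?_⟩
    have h3 := h1 g c
    have h4 := h2 (ι i g) (hD i g) c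
    have h5 := hprj.norm_union_le {γ | ∃ j', j' ≠ τ i ∧ r1 < nm (q j' γ)} {γ | r2 < s γ}
      (H34.Ind.pi (cdat ν hν) (V := V) hT.adjV (ι i g) (OmN hν ξ c))
    refine (hprj.mono ?_ _).trans (h5.trans (by linarith))
    rintro γ (⟨j', hj', h6⟩ | h6)
    · exact Or.inl ⟨j', hj', (le_max_left _ _).trans_lt h6⟩
    · exact Or.inr ((le_max_right _ _).trans_lt h6)
  exact ⟨Br, τ, hB, hmix, nrm', hτ, hτN, fun i c ε hε => by
      obtain ⟨r, hr⟩ := t1 i (OmN hν ξ c) ε hε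
      exact ⟨r, fun v hv => (hprj.mono (fun γ hγ => Or.inl hγ) _).trans (hr v hv)⟩,
    fun i c ε hε => by
      obtain ⟨r, hr⟩ := hdead ε hε
      exact ⟨r, fun v hv => hr v (hzp i v hv) c⟩,
    fun i c => hpos i (τ i) (hτN i) (t3 i) _ (Or.inl rfl) c,
    fun i c => hpos i (τ i) (hτN i) (t3 i) _ (Or.inr rfl) c⟩

end mass

end Vale.Agent.P092.H515.Mx
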