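import Vale.Agent.P092.H962.NT.OutHH
import Vale.Agent.P092.H515.Mx.OutM
import Vale.Agent.P092.H943.Mx5
import Vale.Agent.P092.H305.Mx.PosM

/-!
P092 (helper515), [MIX], all `t`, part 8: the output of the wall analysis with passive places on the
model `L²(E/Γ; HH(α, α, α))`: the D-factors of the source are matched with the D-coordinates, a size
of the N-places is tight along the D-factors.
-/

set_option linter.all false

open scoped InnerProductSpace ENNReal LinearAlgebra.Projectivization ZeroAtInfty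
open Filter Topology ContinuousLinearMap MeasureTheory TopologicalSpace

namespace Vale.Agent.P092.H515.Mx

open Vale.Agent.P092.SR Vale.Agent.P092.H160 Vale.Agent.P092.H103 Vale.Agent.P092.H962
open Vale.Agent.P092.H962.NT
open Vale.Agent.P092.H21 (mT WT Hon nc nc_ne)
open Vale.Agent.P092.H85 (cdat)
open Vale.Agent.P092.H859.CL (st)
open Vale.Agent.P092.RC (GG PG YY y0 ct PicF adjV3)
open Vale.Agent.P092.SN (CY PH UD Adm bw un nm)
open Vale.Agent.P092.H368.SN (Cz)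
open Vale.Agent.P092.H943 (FLeg)

variable {E : Type} [Group E] [TopologicalSpace E] [IsTopologicalGroup E] [LocallyCompactSpace E]
  [SecondCountableTopology E] [T2Space E] [MeasurableSpace E] [BorelSpace E]
  {Γ : Subgroup E} [DiscreteTopology Γ] [Countable Γ] [MeasurableSpace (E ⧸ Γ)]
  [BorelSpace (E ⧸ Γ)] {ν : Measure (E ⧸ Γ)} [IsProbabilityMeasure ν]
  (hν : ∀ g : E, ν.map (fun x => g • x) = ν)
  (hΓ : ∀ g : Γ, g ≠ 1 → Set.Infinite {y : Γ | ∃ h, y = h * g * h⁻¹})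
  {Λ : Type} [Group Λ] [Countable Λ]
  (hΛ : ∀ s : Λ, s ≠ 1 → Set.Infinite {y : Λ | ∃ h, y = h * s * h⁻¹})
  {I : Type} [Fintype I] {α : Γ → (Ell2 (I × Λ) →L[ℂ] Ell2 (I × Λ))} (hα : AF α)
  {κ : Type} [Fintype κ] {ξ : κ → HH (PT α α α)}
  (hT : Tri (V3 hα hα hα) (A3R hα hα hα) (B3R hα hα hα) ξ)
  (hh : Hon (A3R hα hα hα) (B3R hα hα hα) ξ)
  {J : Type} [Fintype J] [DecidableEq J]
  {k l : J → Type} [∀ j, NontriviallyNormedField (k j)] [∀ j, ProperSpace (k j)]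
  [∀ j, NontriviallyNormedField (l j)] [∀ j, ProperSpace (l j)] {N : J → ℕ}

include hΓ hΛ hh

/-- **The output of the wall analysis with passive places**, from the tightness of the size of the
N-places along the D-factors. -/
theorem exists_outM₀ [Nonempty J] (hk : ∀ j, H933.LocK (k j)) (hl : ∀ j, H933.LocK (l j))
    {ι : ∀ j, GG (k j) (N j) →* E} {a a' : ∀ j, E →* PG (k j) (N j + 1)}
    {w : ∀ j, (k j)ˣ} {q : ∀ j, Γ → GG (l j) (N j)} (hA : ∀ j, Adm (ι j) (a j) (a' j))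
    (hcomm : ∀ i j, i ≠ j → ∀ g h, Commute (ι i g) (ι j h))
    (hw : ∀ j, ‖(w j : k j)‖ < 1) (hz : ∀ j, Cz (w j) (ι j) (a j) (a' j))
    (hq : ∀ j, PH (q j)) {s₀ : Γ → ℝ} (hs : Len s₀)
    (fin : ∀ C : ℝ, {γ : Γ | (∀ j, nm (q j γ) ≤ C) ∧ s₀ γ ≤ C}.Finite)
    (ht : ∀ ε : ℝ, 0 < ε → ∃ r : ℝ, ∀ u ∈ Subgroup.closure (⋃ j, Set.range (ι j)), ∀ c,
      ‖st (mT (cdat ν hν) hT) {γ | r < s₀ γ}
        (H34.Ind.pi (cdat ν hν) (V := V3 hα hα hα) hT.adjV u (OmN hν ξ c))‖ ≤ ε) :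
    ∃ (Br : ℝ → Set Γ) (τ : J → J), H962.MX.OutM hν hT ι w q s₀ Br τ := by
  obtain ⟨j₀⟩ := ‹Nonempty J›
  haveI : Nonempty J := ⟨j₀⟩
  haveI : NoncompactSpace E := H859.ExB.noncpt (hA j₀) (hw j₀)
  obtain ⟨m, m', ζ, h'⟩ := exists_tri' hα hα hα hΛ
  refine outM_of hν hT hΓ h' hh (picF_HH hν hΓ hΛ hα hT) hk hl hA hcomm hw hz hq hs fin
    (D := Subgroup.closure (⋃ j, Set.range (ι j)))
    (fun i g => Subgroup.subset_closure (Set.mem_iUnion.2 ⟨i, g, rfl⟩)) ht ?_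
  intro i j hj ht b hb c ε hε
  exact H305.Mx.Pos.posM_HH hν hΓ hΛ hα hT hh hl
    (fun j => lt_of_lt_of_le zero_lt_two (hA j).hN) hq hs fin (hk i) (hA i).hN (hA i).cι
    (hA i).ca (hA i).comp (hw i) j hj ht hb c hε

/-- **The size of the N-places is tight along the D-factors** (`H943.Mx.tight_D` on the model). -/
theorem tight_HH [NoncompactSpace E] {ι : ∀ j, GG (k j) (N j) →* E} {B : Type} [Fintype B]
    {T : B → Type} [∀ b, Group (T b)] [∀ b, TopologicalSpace (T b)]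
    [∀ b, IsTopologicalGroup (T b)] [∀ b, LocallyCompactSpace (T b)] [∀ b, T2Space (T b)]
    {p : ∀ b, Γ →* T b} {Q : ∀ b, C₀(T b, ℂ) →⋆ₙₐ[ℂ] (Lp (HH (PT α α α)) 2 (cdat ν hν).μ →L[ℂ]
      Lp (HH (PT α α α)) 2 (cdat ν hν).μ)}
    {s₀ : Γ → ℝ} (bd : ∀ C : Set (∀ b, T b), IsCompact C →
      ∃ R, ∀ γ, (fun b => p b γ) ∈ C → s₀ γ ≤ R)
    (fl : ∀ b, FLeg (H34.Ind.pi (cdat ν hν) (V := V3 hα hα hα) hT.adjV)
      (H34.Ind.lam (cdat ν hν) (A3R hα hα hα)) (WT (cdat ν hν) (B3R hα hα hα)) (p b) (Q b))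
    (pc : ∀ j h b ψ, Commute (H34.Ind.pi (cdat ν hν) (V := V3 hα hα hα) hT.adjV (ι j h)) (Q b ψ))
    (com : ∀ b b', b ≠ b' → ∀ ψ φ, Commute (Q b ψ) (Q b' φ))
    (hd : ∀ C : Set (∀ b, T b), IsCompact C → (Set.range (fun γ b => p b γ) ∩ C).Finite)
    (ε : ℝ) (hε : 0 < ε) :
    ∃ r : ℝ, ∀ u ∈ Subgroup.closure (⋃ j, Set.range (ι j)), ∀ c,
      ‖st (mT (cdat ν hν) hT) {γ | r < s₀ γ}
        (H34.Ind.pi (cdat ν hν) (V := V3 hα hα hα) hT.adjV u (OmN hν ξ c))‖ ≤ ε := by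
  obtain ⟨m, m', ζ, h'⟩ := exists_tri' hα hα hα hΛ
  exact H943.Mx.tight_D ι (picF_HH hν hΓ hΛ hα hT) (msF_N hν hT hΓ h' hh) fl pc com hd bd ε hε

end Vale.Agent.P092.H515.Mx
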