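import Vale.Agent.P092.H515.Mx.Fam
import Vale.Agent.P092.H305.Mx.Start
import Vale.Agent.P092.H337.NGi
import Vale.Agent.P092.H776.NG6

/-!
P092 (helper515), [MIX], part 4: the regular sets of a jointly proper family of homomorphisms modulo
scalars and one passive length function, for any mass function with `SharpData` for which the passive
size is tight along the source.
-/

set_option linter.all false

open Matrix Filter Topology

namespace Vale.Agent.P092.H515.Mx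

open Vale.Agent.P092.H761 (SharpData GChain HS big mem_big big_anti Geo Gaps)
open Vale.Agent.P092.H538 (ind ind_pos ind_neg ind_nonneg abs_ind_le)
open Vale.Agent.P092.H933 (LocK)
open Vale.Agent.P092.H776.NG (Bg Bg_antitone bw_eq_tor nmx)
open Vale.Agent.P092.RC (GG PG YY ct)
open Vale.Agent.P092.SN (PH nm bw)
open Vale.Agent.P092.H337.NG (RG)
open Vale.Agent.P092.H701 (HChain tor)
open Vale.Agent.P092.H261 (PingT gchain_of_hchain)
open Vale.Agent.P092.H305.Mx (Dead start2_d)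

section abs

variable {Γ 𝔾 I : Type} [Group Γ] [DecidableEq Γ] [Group 𝔾] [Fintype I] {t : ℝ}
  {mass : 𝔾 → (Γ → ℝ) → ℝ} {Cpt : Set 𝔾 → Prop} {Ping : (p : ℕ) → (Fin p → 𝔾) → Prop}
  {m : ℕ} {b : Fin m → ℕ → 𝔾} {𝒦 : Fin m → Set 𝔾} {n : I → ℕ} {s w : Γ → ℝ}
  {gap : (Σ o : Option I, Fin (nn n o - 1)) → Γ → ℝ}

theorem nn_none (x y : Fin (nn n none - 1)) : x = y := by
  have e : nn n none - 1 = 1 := rfl
  have h1 := x.2
  have h2 := y.2
  exact Fin.ext (by omega)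

theorem none_eq {x : Σ o : Option I, Fin (nn n o - 1)} (hx : x.1 = none)
    (y : Fin (nn n none - 1)) : x = ⟨none, y⟩ := by
  obtain ⟨o, x⟩ := x
  obtain rfl : o = none := hx
  rw [nn_none x y]

/-- Along the first direction of a chain at most one gap is large. -/
theorem nw_psys (h : SharpData t mass Cpt Ping) (hch : GChain Cpt Ping m b 𝒦) (hm : 0 < m)
    (hJ : ∑ i, (n i - 1) ≤ m)
    (hs : PSys gap w (fun θ => ∀ x ∈ θ, x.1 ≠ none)) (hfin : ∀ R : ℝ, {g | w g ≤ R}.Finite)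
    (hgs : ∀ x γ, gap ⟨none, x⟩ γ = s γ)
    (hdead : ∀ ε : ℝ, 0 < ε → ∃ R : ℝ, ∀ n h, HS b n h → mass h (ind fun g => R < s g) ≤ ε)
    {ε : ℝ} (hε : 0 < ε) :
    ∃ R : ℝ, ∀ N, mass (b ⟨0, hm⟩ N) (ind fun g => g ∈ Bg gap R) ≤ ε := by
  classical
  obtain ⟨x0⟩ : Nonempty (Fin (nn n none - 1)) := ⟨(0 : Fin 1)⟩
  obtain ⟨cl, -⟩ : ∃ cl : (Σ o : Option I, Fin (nn n o - 1)) ≃
      Fin (Fintype.card (Σ o : Option I, Fin (nn n o - 1))), True :=
    ⟨Fintype.equivFin _, trivial⟩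
  have hg := hs.gaps hfin (fun x => cl x)
    (fun R => ⟨R, fun i j hij g hg => by rw [← cl.injective hij]; exact hg⟩)
  have hD : Dead mass gap (fun x => cl x) b (cl ⟨none, x0⟩) := by
    intro ε hε
    obtain ⟨R, hR⟩ := hdead ε hε
    refine ⟨R + 1, fun n x hx => (h.ind_mono x (Q := fun g => R < s g) fun g hg' => ?_).trans
      (hR n x hx)⟩
    obtain ⟨j, hj1, hj2⟩ := mem_big.1 hg'
    rw [cl.injective hj1, hgs] at hj2
    linarith
  have hcard : Fintype.card (Σ o : Option I, Fin (nn n o - 1)) ≤ m + 1 := by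
    rw [Fintype.card_sigma, Fintype.sum_option]
    have e1 : Fintype.card (Fin (nn n none - 1)) = 1 := by rw [Fintype.card_fin]; rfl
    have e2 : ∑ i, Fintype.card (Fin (nn n (some i) - 1)) = ∑ i, (n i - 1) :=
      Finset.sum_congr rfl fun i _ => by rw [Fintype.card_fin]; rfl
    rw [e1, e2]
    omega
  obtain ⟨R, hR⟩ := start2_d h hg (fun θ _ _ hθ => hs.geo hfin θ fun x hx hn =>
    hθ x hx (by rw [none_eq hn x0])) hD hch hcard hm (half_pos hε)
  obtain ⟨R₂, hR₂⟩ := hdead (ε / 2) (half_pos hε)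
  refine ⟨max R R₂, fun N => ?_⟩
  have h1 := h.union (b ⟨0, hm⟩ N) (Finset.univ : Finset Bool)
    (fun g => g ∈ Bg gap (max R R₂))
    (fun c g => if c then 2 ≤ ((big gap (fun x => cl x) R g).erase (cl ⟨none, x0⟩)).card
      else R₂ < s g) fun g hg' => ?_
  · refine h1.trans ?_
    rw [Fintype.sum_bool]
    have h2 := hR N
    have h3 := hR₂ _ _ (HS.step hm N HS.one)
    rw [one_mul] at h3
    simp only [if_true, Bool.false_eq_true, if_false]
    linarith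
  · obtain ⟨i, j, hij, h2, h3⟩ := hg'
    by_cases hi : i.1 = none
    · refine ⟨false, Finset.mem_univ _, ?_⟩
      simp only [Bool.false_eq_true, if_false]
      rw [none_eq hi x0, hgs] at h2
      exact (le_max_right _ _).trans_lt h2
    by_cases hj : j.1 = none
    · refine ⟨false, Finset.mem_univ _, ?_⟩
      simp only [Bool.false_eq_true, if_false]
      rw [none_eq hj x0, hgs] at h3
      exact (le_max_right _ _).trans_lt h3
    refine ⟨true, Finset.mem_univ _, ?_⟩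
    rw [if_pos rfl]
    refine Finset.one_lt_card.2 ⟨cl i, ?_, cl j, ?_, fun h => hij (cl.injective h)⟩
    · exact Finset.mem_erase.2 ⟨fun e => hi (by rw [cl.injective e]), mem_big.2 ⟨i, rfl,
        ((le_max_left _ _).trans_lt h2).le⟩⟩
    · exact Finset.mem_erase.2 ⟨fun e => hj (by rw [cl.injective e]), mem_big.2 ⟨j, rfl,
        ((le_max_left _ _).trans_lt h3).le⟩⟩

end abs

section fam

variable {I : Type} [Fintype I] [DecidableEq I] {k : I → Type}
  [∀ i, NontriviallyNormedField (k i)] [∀ i, ProperSpace (k i)] {N : I → ℕ}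
  {I' : Type} [Fintype I'] {k' : I' → Type}
  [∀ j, NontriviallyNormedField (k' j)] [∀ j, ProperSpace (k' j)] {N' : I' → ℕ}
  {E : Type} [Group E] [TopologicalSpace E] [MeasurableSpace E] [BorelSpace E]
  {Γ : Type} [Group Γ] {mass : E → (Γ → ℝ) → ℝ} {s : Γ → ℝ}

/-- **Regular sets of a family of targets with a passive size.** -/
theorem exists_rgS [DecidableEq I'] (hd : ∀ _ : DecidableEq Γ, ∃ t : ℝ,
      SharpData t mass (fun K : Set E => IsCompact K) (PingT E))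
    {ι : ∀ i, GG (k i) (N i) →* E} {a : ∀ i, E →* PG (k i) (N i + 1)}
    (hN : ∀ i, 0 < N i) (hι : ∀ i, Continuous (ι i)) (ha : ∀ i, Continuous (a i))
    (hcomp : ∀ i g (x : YY (k i) (N i)), a i (ι i g) • x = g • x)
    (hcomm : ∀ i j, i ≠ j → ∀ g h, Commute (ι i g) (ι j h)) {w : ∀ i, (k i)ˣ}
    (hw : ∀ i, ‖(w i : k i)‖ < 1) (hk' : ∀ j, LocK (k' j)) (hN' : ∀ j, 0 < N' j)
    (hNN : ∑ j, N' j ≤ ∑ i, N i) {q : ∀ j, Γ → GG (k' j) (N' j)} (hq : ∀ j, PH (q j))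
    (hs : Len s) (disc : ∀ C : ℝ, {γ : Γ | (∀ j, nm (q j γ) ≤ C) ∧ s γ ≤ C}.Finite)
    {D : Subgroup E} (hD : ∀ i g, ι i g ∈ D)
    (hdead : ∀ ε : ℝ, 0 < ε → ∃ r : ℝ, ∀ u ∈ D, mass u (ind fun γ => r < s γ) ≤ ε) :
    ∃ Br : ℝ → Set Γ, RG q Br ∧
      (∀ i (r : ℝ), ∃ r' : ℝ, ∀ γ, r' < nm (q i γ) → r' < s γ → γ ∈ Br r) ∧
      ∀ i, ∀ ε : ℝ, 0 < ε → ∃ r : ℝ, ∀ u ∈ Subgroup.zpowers (ι i (bw (w i))),
        mass u (ind fun γ => γ ∈ Br r) ≤ ε := by
  classical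
  obtain ⟨gap, W, hp, hfin, hgs, h1, h2, h3, h4, -, -⟩ := psys_fam (n := fun j => N' j + 1) hk'
    (fun j => by have := hN' j; omega) q hq hs disc
  obtain ⟨t, hd⟩ := hd (Classical.decEq Γ)
  refine ⟨Bg gap, ⟨Bg_antitone gap, Bg_transP hp, fun j r => ?_, fun j r => ?_, h3⟩, h4,
    fun i ε hε => ?_⟩
  · obtain ⟨r', hr'⟩ := h1 j r
    exact ⟨r', fun γ a1 a2 => hr' γ (by rwa [← H776.NG.G1_eq]) (by rwa [← H776.NG.G2_eq])⟩
  · obtain ⟨r', hr'⟩ := h2 j r
    refine ⟨r', fun γ a1 a2 => hr' γ ?_ ?_⟩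
    · have e : H337.NG.G1 (ct (q j γ)) = H337.NG.G1 (q j γ)⁻¹ := H337.NG.G1_ta (q j γ)
      rwa [← H776.NG.G1_inv_eq, ← e]
    · have e : H337.NG.G2 (ct (q j γ)) = H337.NG.G2 (q j γ)⁻¹ := H337.NG.G2_ta (q j γ)
      rwa [← H776.NG.G2_inv_eq, ← e]
  · have hw1 : ∀ i, 1 < ‖(((w i)⁻¹ : (k i)ˣ) : k i)‖ := fun i => by
      rw [Units.val_inv_eq_inv_val, norm_inv]
      exact one_lt_inv_iff₀.2 ⟨norm_pos_iff.2 (w i).ne_zero, hw i⟩
    obtain ⟨e, he, ⟨C, hC⟩, C', hC', hC''⟩ := H776.NE.exists_chE hN ι a hι ha hcomp hcomm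
      (fun i => (((w i)⁻¹ : (k i)ˣ) : k i)) hw1 (fun i => Units.ne_zero _) i
    have hm : 0 < ∑ i, N i := lt_of_lt_of_le (hN i)
      (Finset.single_le_sum (f := N) (fun _ _ => Nat.zero_le _) (Finset.mem_univ i))
    have hJ : ∑ j, (N' j + 1 - 1) ≤ ∑ i, N i := by
      refine le_trans (le_of_eq (Finset.sum_congr rfl fun j _ => ?_)) hNN
      omega
    have hDC : ∀ x N, C.b x N ∈ D := fun x N => by
      rw [hC]
      exact D.pow_mem (hD _ _) N
    have hDC' : ∀ x N, C'.b x N ∈ D := fun x N => by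
      rcases hC'' x N with h4 | h4
      · rw [h4]
        exact D.pow_mem (hD _ _) N
      · rw [h4, ← map_inv]
        exact D.pow_mem (hD _ _) N
    have key : ∀ (C : HChain E (∑ i, N i)), (∀ x N, C.b x N ∈ D) → ∀ ε : ℝ, 0 < ε → ∃ r : ℝ,
        ∀ M, mass (C.b ⟨0, hm⟩ M) (ind fun g => g ∈ Bg gap r) ≤ ε := by
      intro C hDC ε hε
      have hHS : ∀ n h, HS C.b n h → h ∈ D := by
        intro n h hh
        induction hh with
        | one => exact D.one_mem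
        | step hj N hh ih => exact D.mul_mem ih (hDC _ N)
      exact nw_psys hd (gchain_of_hchain C) hm hJ hp hfin hgs (fun ε hε => by
        obtain ⟨r, hr⟩ := hdead ε hε
        exact ⟨r, fun n h hh => hr h (hHS n h hh)⟩) hε
    have mono : ∀ (r₁ r₂ : ℝ) (u : E), r₁ ≤ r₂ →
        mass u (ind fun γ => γ ∈ Bg gap r₂) ≤ mass u (ind fun γ => γ ∈ Bg gap r₁) :=
      fun r₁ r₂ u h => hd.ind_mono u (P := fun γ => γ ∈ Bg gap r₂)
        (Q := fun γ => γ ∈ Bg gap r₁) fun γ hγ => Bg_antitone gap h hγ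
    obtain ⟨r, hr⟩ := key C hDC ε hε
    obtain ⟨r', hr'⟩ := key C' hDC' ε hε
    have e0 : ∀ M, C.b ⟨0, hm⟩ M = ι i (bw (w i)) ^ M := fun M => by
      rw [hC, he]
      change ι i (tor (N i) _ (⟨0, hN i⟩ : Fin (N i)).castSucc) ^ M = _
      rw [bw_eq_tor]
      rfl
    have e1 : ∀ M, C'.b ⟨0, hm⟩ M = (ι i (bw (w i)))⁻¹ ^ M := fun M => by
      rw [hC', bw_eq_tor]
    refine ⟨max r r', ?_⟩
    rintro _ ⟨z, rfl⟩
    obtain ⟨M, rfl | rfl⟩ := z.eq_nat_or_neg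
    · have h0 := hr M
      rw [e0] at h0
      have h1 := (mono _ _ (ι i (bw (w i)) ^ M) (le_max_left r r')).trans h0
      simpa using h1
    · have h0 := hr' M
      rw [e1] at h0
      have h1 := (mono _ _ ((ι i (bw (w i)))⁻¹ ^ M) (le_max_right r r')).trans h0
      simpa using h1

end fam

end Vale.Agent.P092.H515.Mx
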